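import Mathlib

/-!
The `2 × 2` minors of the adjugate of a `3 × 3` matrix are divisible by the determinant.
-/

namespace Vale.Agent.P287.H946

open Matrix

variable {R : Type*} [CommRing R]

lemma adj3_minor_aux (A : Matrix (Fin 3) (Fin 3) R) (i j : Fin 3) :
    A.adjugate i j * A.adjugate (i + 1) (j + 1) - A.adjugate i (j + 1) * A.adjugate (i + 1) j =
      A.det * A (j + 2) (i + 2) := by
  fin_cases i <;> fin_cases j <;> simp [adjugate_fin_three, det_fin_three] <;> ring

lemma adj3_minor (A : Matrix (Fin 3) (Fin 3) R) (i j k l : Fin 3) :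
    A.det ∣ A.adjugate i j * A.adjugate k l - A.adjugate i l * A.adjugate k j := by
  have h3 : ∀ i k : Fin 3, i = k ∨ k = i + 1 ∨ i = k + 1 := by decide
  rcases h3 i k with rfl | rfl | rfl
  · rw [mul_comm (A.adjugate i l), sub_self]
    exact dvd_zero _
  · rcases h3 j l with rfl | rfl | rfl
    · rw [sub_self]
      exact dvd_zero _
    · exact ⟨_, adj3_minor_aux A i j⟩
    · refine ⟨-A (l + 2) (i + 2), ?_⟩
      rw [mul_neg, ← adj3_minor_aux A i l]
      ring
  · rcases h3 j l with rfl | rfl | rfl
    · rw [sub_self]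
      exact dvd_zero _
    · refine ⟨-A (j + 2) (k + 2), ?_⟩
      rw [mul_neg, ← adj3_minor_aux A k j]
      ring
    · refine ⟨A (l + 2) (k + 2), ?_⟩
      rw [← adj3_minor_aux A k l]
      ring

end Vale.Agent.P287.H946
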