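import Mathlib

/-!
Linear description of the conditions `c² ∈ (f,g)` and `aᵀ N a ∈ (f,g)`, as a certificate which is
stable under base change.
-/

namespace Vale.Agent.P287.H946

open Matrix

variable {R : Type*} [CommRing R]

/-- Certificate: `G² = g U` modulo `f` with `U` invertible modulo `(f,g)`; the matrix `N` has rank
one modulo `f` and `rᵀ N r` is invertible modulo `(f,g)`. -/
structure Cert (f g : R) (N : Matrix (Fin 3) (Fin 3) R) (G U V w : R) (r : Fin 3 → R) : Prop where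
  sq : f ∣ G ^ 2 - g * U
  unit : U * V - 1 ∈ Ideal.span {f, g}
  minor : ∀ i j k l, f ∣ N i j * N k l - N i l * N k j
  rr : w * (r ⬝ᵥ N *ᵥ r) - 1 ∈ Ideal.span {f, g}
  nzd : ∀ x, f ∣ g * x → f ∣ x

lemma mem_of_unit {I : Ideal R} {u v x : R} (huv : u * v - 1 ∈ I) (h : u * x ∈ I) : x ∈ I := by
  have h1 : x = v * (u * x) - (u * v - 1) * x := by ring
  rw [h1]
  exact sub_mem (I.mul_mem_left _ h) (I.mul_mem_right _ huv)

lemma f_mem {f g : R} : f ∈ Ideal.span {f, g} := Ideal.subset_span (by simp)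

lemma g_mem {f g : R} : g ∈ Ideal.span {f, g} := Ideal.subset_span (by simp)

lemma dvd_mem {f g x : R} (h : f ∣ x) : x ∈ Ideal.span {f, g} := by
  obtain ⟨y, rfl⟩ := h
  exact Ideal.mul_mem_right _ _ f_mem

/-- `J · J ⊆ (f,g)` for `J = ((f,g) : G)`. -/
lemma mul_mem_of {f g G U V : R} (hsq : f ∣ G ^ 2 - g * U) (hu : U * V - 1 ∈ Ideal.span {f, g})
    (hnzd : ∀ x, f ∣ g * x → f ∣ x) {c c' : R} (hc : G * c ∈ Ideal.span {f, g})
    (hc' : G * c' ∈ Ideal.span {f, g}) : c * c' ∈ Ideal.span {f, g} := by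
  obtain ⟨b, a, h1⟩ := Ideal.mem_span_pair.1 hc
  obtain ⟨b', a', h2⟩ := Ideal.mem_span_pair.1 hc'
  obtain ⟨s, hs⟩ := hsq
  have h3 : f ∣ g * (U * (c * c') - g * (a * a')) := by
    refine ⟨b * b' * f + b * a' * g + a * b' * g - s * (c * c'), ?_⟩
    linear_combination (-(G * c')) * h1 - (b * f + a * g) * h2 - (c * c') * hs
  have h4 := hnzd _ h3
  refine mem_of_unit hu ?_
  have h5 : U * (c * c') = (U * (c * c') - g * (a * a')) + g * (a * a') := by ring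
  rw [h5]
  exact add_mem (dvd_mem h4) (Ideal.mul_mem_right _ _ g_mem)

section N

variable {f g : R} {N : Matrix (Fin 3) (Fin 3) R} {G U V w : R} {r : Fin 3 → R}

lemma dot_mulVec (N : Matrix (Fin 3) (Fin 3) R) (a b : Fin 3 → R) :
    a ⬝ᵥ N *ᵥ b = ∑ i, ∑ j, a i * N i j * b j := by
  rw [dotProduct]
  refine Finset.sum_congr rfl fun i _ => ?_
  rw [mulVec, dotProduct, Finset.mul_sum]
  exact Finset.sum_congr rfl fun j _ => by ring

/-- the rank one identity -/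
lemma minor_dot (hm : ∀ i j k l, f ∣ N i j * N k l - N i l * N k j) (a b x y : Fin 3 → R) :
    f ∣ (a ⬝ᵥ N *ᵥ b) * (x ⬝ᵥ N *ᵥ y) - (a ⬝ᵥ N *ᵥ y) * (x ⬝ᵥ N *ᵥ b) := by
  rw [dot_mulVec, dot_mulVec, dot_mulVec, dot_mulVec]
  have h : (∑ i, ∑ j, a i * N i j * b j) * (∑ i, ∑ j, x i * N i j * y j) -
      (∑ i, ∑ j, a i * N i j * y j) * (∑ i, ∑ j, x i * N i j * b j) =
      ∑ i, ∑ j, ∑ k, ∑ l, (a i * b j * x k * y l) * (N i j * N k l - N i l * N k j) := by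
    simp only [Fin.sum_univ_three]
    ring
  rw [h]
  exact Finset.dvd_sum fun i _ => Finset.dvd_sum fun j _ => Finset.dvd_sum fun k _ =>
    Finset.dvd_sum fun l _ => (hm i j k l).mul_left _

lemma single_dot (N : Matrix (Fin 3) (Fin 3) R) (i : Fin 3) (b : Fin 3 → R) :
    (Pi.single i 1 : Fin 3 → R) ⬝ᵥ N *ᵥ b = (N *ᵥ b) i := by
  rw [single_dotProduct, one_mul]

/-- `(a·N a')(r·N r) = (r·N a')(a·N r)`. -/
lemma Cert.dot_mem (h : Cert f g N G U V w r) (hN : N.IsSymm) {a a' : Fin 3 → R}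
    (ha : ∀ i, G * (N *ᵥ a) i ∈ Ideal.span {f, g}) (ha' : ∀ i, G * (N *ᵥ a') i ∈ Ideal.span {f, g}) :
    a ⬝ᵥ N *ᵥ a' ∈ Ideal.span {f, g} := by
  have key : ∀ {a : Fin 3 → R}, (∀ i, G * (N *ᵥ a) i ∈ Ideal.span {f, g}) →
      G * (r ⬝ᵥ N *ᵥ a) ∈ Ideal.span {f, g} := by
    intro a ha
    rw [dotProduct, Finset.mul_sum]
    refine sum_mem fun i _ => ?_
    have : G * (r i * (N *ᵥ a) i) = r i * (G * (N *ᵥ a) i) := by ring
    rw [this]
    exact Ideal.mul_mem_left _ _ (ha i)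
  have h1 := mul_mem_of h.sq h.unit h.nzd (key ha) (key ha')
  have h2 := minor_dot h.minor a a' r r
  have h3 : a ⬝ᵥ N *ᵥ r = r ⬝ᵥ N *ᵥ a := by
    rw [dotProduct_mulVec, ← mulVec_transpose, hN.eq, dotProduct_comm]
  rw [h3] at h2
  refine mem_of_unit (u := r ⬝ᵥ N *ᵥ r) (v := w) ?_ ?_
  · rw [mul_comm]
    exact h.rr
  · have h4 : (r ⬝ᵥ N *ᵥ r) * (a ⬝ᵥ N *ᵥ a') =
        ((a ⬝ᵥ N *ᵥ a') * (r ⬝ᵥ N *ᵥ r) - (r ⬝ᵥ N *ᵥ a) * (r ⬝ᵥ N *ᵥ a')) +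
          (r ⬝ᵥ N *ᵥ a) * (r ⬝ᵥ N *ᵥ a') := by ring
    rw [h4]
    exact add_mem (dvd_mem h2) h1

/-- `(N a)_i² = (aᵀ N a) N_ii` modulo `f`. -/
lemma Cert.sq_entry (h : Cert f g N G U V w r) (hN : N.IsSymm) (a : Fin 3 → R) (i : Fin 3) :
    f ∣ (a ⬝ᵥ N *ᵥ a) * N i i - (N *ᵥ a) i ^ 2 := by
  have h1 := minor_dot h.minor a a (Pi.single i 1) (Pi.single i 1)
  have h2 : a ⬝ᵥ N *ᵥ (Pi.single i 1 : Fin 3 → R) =
      (Pi.single i 1 : Fin 3 → R) ⬝ᵥ N *ᵥ a := by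
    rw [dotProduct_mulVec, ← mulVec_transpose, hN.eq, dotProduct_comm]
  have h3 : (N *ᵥ (Pi.single i 1 : Fin 3 → R)) i = N i i := by
    rw [mulVec_single_one, col_apply]
  rw [h2, single_dot, single_dot, h3, ← pow_two] at h1
  exact h1

lemma Cert.mul_mem (h : Cert f g N G U V w r) {c c' : R} (hc : G * c ∈ Ideal.span {f, g})
    (hc' : G * c' ∈ Ideal.span {f, g}) : c * c' ∈ Ideal.span {f, g} :=
  mul_mem_of h.sq h.unit h.nzd hc hc'

/-- `N a` is a multiple of the fixed vector `N r`, modulo `(f,g)`. -/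
lemma Cert.cyclic (h : Cert f g N G U V w r) (a : Fin 3 → R) (i : Fin 3) :
    (N *ᵥ a) i - (w * (r ⬝ᵥ N *ᵥ a)) * (N *ᵥ r) i ∈ Ideal.span {f, g} := by
  have h2 := minor_dot h.minor (Pi.single i 1) a r r
  rw [single_dot, single_dot] at h2
  have h4 : (N *ᵥ a) i - (w * (r ⬝ᵥ N *ᵥ a)) * (N *ᵥ r) i =
      w * ((N *ᵥ a) i * (r ⬝ᵥ N *ᵥ r) - (N *ᵥ r) i * (r ⬝ᵥ N *ᵥ a)) -
        (w * (r ⬝ᵥ N *ᵥ r) - 1) * (N *ᵥ a) i := by ring
  rw [h4]
  exact sub_mem (Ideal.mul_mem_left _ _ (dvd_mem h2)) (Ideal.mul_mem_right _ _ h.rr)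

lemma Cert.G_sq (h : Cert f g N G U V w r) : G * G ∈ Ideal.span {f, g} := by
  have h1 : G * G = (G ^ 2 - g * U) + g * U := by ring
  rw [h1]
  exact add_mem (dvd_mem h.sq) (Ideal.mul_mem_right _ _ g_mem)

/-- base change of certificates -/
lemma Cert.map {R' : Type*} [CommRing R'] (h : Cert f g N G U V w r) (φ : R →+* R')
    (hnzd : ∀ x, φ f ∣ φ g * x → φ f ∣ x) :
    Cert (φ f) (φ g) (N.map φ) (φ G) (φ U) (φ V) (φ w) (φ ∘ r) := by
  have hI : ∀ x, x ∈ Ideal.span {f, g} → φ x ∈ Ideal.span {φ f, φ g} := by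
    intro x hx
    obtain ⟨a, b, rfl⟩ := Ideal.mem_span_pair.1 hx
    exact Ideal.mem_span_pair.2 ⟨φ a, φ b, by simp⟩
  refine ⟨?_, ?_, ?_, ?_, hnzd⟩
  · have := map_dvd φ h.sq
    simpa using this
  · have := hI _ h.unit
    simpa using this
  · intro i j k l
    have := map_dvd φ (h.minor i j k l)
    simpa using this
  · have := hI _ h.rr
    have h2 : φ (r ⬝ᵥ N *ᵥ r) = (φ ∘ r) ⬝ᵥ (N.map φ) *ᵥ (φ ∘ r) := by
      rw [dot_mulVec, dot_mulVec]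
      simp
    rw [map_sub, map_mul, map_one, h2] at this
    exact this

end N

end Vale.Agent.P287.H946
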