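import Vale.Agent.P287.Odd.Spec
import Vale.Agent.P287.Theta.Count
import Vale.Agent.P287.H684.Bk
import Vale.Agent.P287.H946.Cert
import Vale.Agent.P287.H946.Adj3

/-!
Block [C]: the linear conditions defining `X` have codimension at most `3 n` and `3 n`.
-/

namespace Vale.Agent.P287.H946

open Polynomial Module Matrix Vale.Agent.P287.Odd

section General

variable {k V W S : Type*} [Field k] [AddCommGroup V] [Module k V] [AddCommGroup W] [Module k W]
  [AddCommGroup S] [Module k S]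

lemma finrank_le_ker_inf (T : V →ₗ[k] W) (E : Submodule k V) [Module.Finite k E]
    [Module.Finite k S] (U : S →ₗ[k] W) (h : ∀ v ∈ E, ∃ s, U s = T v) :
    finrank k E ≤ finrank k ↥(LinearMap.ker T ⊓ E) + finrank k S := by
  have h1 := (T.domRestrict E).finrank_range_add_finrank_ker
  have h2 : LinearMap.ker (T.domRestrict E) = (LinearMap.ker T ⊓ E).comap E.subtype := by
    ext v
    simp
  have h3 : finrank k (LinearMap.ker (T.domRestrict E)) = finrank k ↥(LinearMap.ker T ⊓ E) := by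
    rw [h2]
    exact (Submodule.comapSubtypeEquivOfLe inf_le_right).finrank_eq
  have h4 : LinearMap.range (T.domRestrict E) ≤ LinearMap.range U := by
    rintro _ ⟨⟨v, hv⟩, rfl⟩
    obtain ⟨s, hs⟩ := h v hv
    exact ⟨s, hs⟩
  have h5 := Submodule.finrank_mono h4
  have h6 := LinearMap.finrank_range_le U
  omega

end General

/-- a vector on which a rank one symmetric form is invertible, over an Artinian ring -/
lemma exists_unit_vector {A : Type} [CommRing A] [IsArtinianRing A] (N : Matrix (Fin 3) (Fin 3) A)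
    (hN : ∀ P : Ideal A, P.IsMaximal → ∃ i, N i i ∉ P) :
    ∃ r : Fin 3 → A, IsUnit (r ⬝ᵥ N *ᵥ r) := by
  classical
  obtain ⟨T, hTfin, e, κ, hunit⟩ := Theta.exists_unit_combo (fun k l => N l k) hN
  set r : Fin 3 → A := fun i => ∑ t, if κ t = i then e t else 0 with hr
  refine ⟨r, ?_⟩
  have hrN : r ⬝ᵥ N *ᵥ r = ∑ t, ∑ t', e t * (e t' * N (κ t) (κ t')) := by
    have hd : ∀ b : Fin 3 → A, r ⬝ᵥ b = ∑ t, e t * b (κ t) := by
      intro b
      rw [dotProduct]
      simp only [hr, Finset.sum_mul, ite_mul, zero_mul]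
      rw [Finset.sum_comm]
      refine Finset.sum_congr rfl fun t _ => ?_
      rw [Finset.sum_ite_eq Finset.univ (κ t) (fun i => e t * b i), if_pos (Finset.mem_univ _)]
    rw [hd]
    refine Finset.sum_congr rfl fun t _ => ?_
    rw [mulVec, dotProduct_comm, hd, Finset.mul_sum]
  rw [hrN]
  exact hunit

lemma cyclic_eq {A : Type} [CommRing A] (N : Matrix (Fin 3) (Fin 3) A)
    (hNm : ∀ i j k l, N i j * N k l = N i l * N k j) (a r : Fin 3 → A) (i : Fin 3) :
    (N *ᵥ a) i * (r ⬝ᵥ N *ᵥ r) = (N *ᵥ r) i * (r ⬝ᵥ N *ᵥ a) := by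
  have h3 := minor_dot (f := (0 : A)) (N := N) (fun i j k l => by
    rw [hNm i j k l, sub_self]) (Pi.single i 1) a r r
  rw [single_dot, single_dot, zero_dvd_iff, sub_eq_zero] at h3
  exact h3

section Field

variable {k : Type} [Field k]

lemma Wd_iff_TW {d : ℕ} {P : k[X][X]} : Wd d P ↔ H684.TW d P := H684.TW_iff.symm

lemma En_eq_PB (n d : ℕ) : (En n d : Submodule k k[X][X]) = H684.PB k n d := by
  ext P
  change (Wd d P ∧ _) ↔ (H684.TW d P ∧ _)
  rw [Wd_iff_TW]

instance finite_En (n d : ℕ) : Module.Finite k (En n d : Submodule k k[X][X]) := by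
  rw [En_eq_PB]
  infer_instance

lemma two_mul_finrank_En {n d : ℕ} (h : n ≤ d + 1) :
    2 * finrank k (En n d : Submodule k k[X][X]) + n * n = n * (2 * d + 3) := by
  rw [En_eq_PB]
  exact H684.two_mul_finrank_PB h

variable {m : ℕ} {g f : k[X][X]} {J : Ideal k[X][X]} {A : Matrix (Fin 3) (Fin 3) k[X][X]}

/-- the class map modulo `J` as a `k`-linear map -/
noncomputable def mkJ (J : Ideal k[X][X]) : k[X][X] →ₗ[k] (k[X][X] ⧸ J) :=
  (Ideal.Quotient.mkₐ k J).toLinearMap

lemma mkJ_apply (p : k[X][X]) : mkJ J p = Ideal.Quotient.mk J p := rfl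

lemma mkJ_eq_zero {p : k[X][X]} : mkJ J p = 0 ↔ p ∈ J := Ideal.Quotient.eq_zero_iff_mem

lemma isArtinian_quot (hJ : Half m g f J) : IsArtinianRing (k[X][X] ⧸ J) := by
  have := hJ.fin
  exact IsArtinianRing.of_finite k _

/-- unit vector modulo `J` -/
lemma exists_cyclic (hJ : Half m g f J) (hA : Quadrics g f A) :
    ∃ y : Fin 3 → k[X][X] ⧸ J, ∀ a : Fin 3 → k[X][X], ∃ z : k[X][X] ⧸ J, ∀ i,
      Ideal.Quotient.mk J ((A.adjugate *ᵥ a) i) = z * y i := by
  have hart := isArtinian_quot hJ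
  set π := Ideal.Quotient.mk J with hπ
  have hminor : ∀ i j k l, π (A.adjugate i j * A.adjugate k l) =
      π (A.adjugate i l * A.adjugate k j) := by
    intro i j k l
    rw [← sub_eq_zero, ← map_sub, hπ, Ideal.Quotient.eq_zero_iff_mem]
    obtain ⟨q, hq⟩ := adj3_minor A i j k l
    rw [hq, hA.det]
    exact Ideal.mul_mem_right _ _ (J.neg_mem hJ.f_mem)
  set N : Matrix (Fin 3) (Fin 3) (k[X][X] ⧸ J) := A.adjugate.map π with hN
  have hNs : ∀ i j, N i j = N j i := by
    intro i j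
    have h := Matrix.adjugate_transpose A
    rw [hA.symm.eq] at h
    have := congrFun (congrFun h j) i
    rw [Matrix.transpose_apply] at this
    rw [hN, Matrix.map_apply, Matrix.map_apply, this]
  have hNm : ∀ i j k l, N i j * N k l = N i l * N k j := by
    intro i j k l
    have := hminor i j k l
    rw [map_mul, map_mul] at this
    exact this
  obtain ⟨r, hr⟩ := exists_unit_vector N (by
    intro P hP
    by_contra hcon
    push Not at hcon
    have h1 : ∀ i j, N i j ∈ P := by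
      intro i j
      have h2 : N i j * N i j ∈ P := by
        have h3 := hNm i i j j
        rw [hNs j i] at h3
        rw [← h3]
        exact P.mul_mem_right _ (hcon i)
      exact (hP.isPrime.mem_or_mem h2).elim id id
    have h2 : (⊤ : Ideal k[X][X]) ≤ P.comap π := by
      rw [← hA.rank]
      refine sup_le ?_ ?_
      · rw [Ideal.span_le]
        rintro _ ⟨ij, rfl⟩
        exact h1 ij.1 ij.2
      · rw [Ideal.span_le]
        rintro _ (rfl | rfl)
        · change π _ ∈ P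
          rw [hπ, Ideal.Quotient.eq_zero_iff_mem.2 hJ.f_mem]
          exact P.zero_mem
        · change π _ ∈ P
          rw [hπ, Ideal.Quotient.eq_zero_iff_mem.2 hJ.g_mem]
          exact P.zero_mem
    have h3 : (1 : k[X][X]) ∈ P.comap π := h2 trivial
    rw [Ideal.mem_comap, map_one] at h3
    exact hP.ne_top ((Ideal.eq_top_iff_one P).2 h3))
  obtain ⟨w, hw⟩ := hr.exists_left_inv
  refine ⟨N *ᵥ r, fun a => ?_⟩
  set a' : Fin 3 → k[X][X] ⧸ J := π ∘ a with ha'
  refine ⟨w * (r ⬝ᵥ N *ᵥ a'), fun i => ?_⟩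
  have h1 : π ((A.adjugate *ᵥ a) i) = (N *ᵥ a') i := by
    rw [mulVec, mulVec, dotProduct, dotProduct, map_sum]
    exact Finset.sum_congr rfl fun j _ => by rw [map_mul]; rfl
  rw [h1]
  have h2 : (N *ᵥ a') i * (r ⬝ᵥ N *ᵥ r) = (N *ᵥ r) i * (r ⬝ᵥ N *ᵥ a') :=
    cyclic_eq N hNm a' r i
  calc (N *ᵥ a') i = (w * (r ⬝ᵥ N *ᵥ r)) * (N *ᵥ a') i := by rw [hw, one_mul]
    _ = w * ((N *ᵥ a') i * (r ⬝ᵥ N *ᵥ r)) := by ring
    _ = w * (r ⬝ᵥ N *ᵥ a') * (N *ᵥ r) i := by rw [h2]; ring

/-- [C1] -/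
theorem finrank_En_le_J (hJ : Half m g f J) (n d : ℕ) :
    finrank k (En n d : Submodule k k[X][X]) ≤
      finrank k ↥(J.restrictScalars k ⊓ En n d : Submodule k k[X][X]) + 3 * (2 * m + 1) := by
  have := hJ.fin
  have h1 := finrank_le_ker_inf (mkJ J) (En n d) (LinearMap.id (R := k) (M := k[X][X] ⧸ J))
    (fun v _ => ⟨mkJ J v, rfl⟩)
  have h2 : LinearMap.ker (mkJ J) = J.restrictScalars k := by
    ext p
    exact mkJ_eq_zero
  rw [h2] at h1
  have := hJ.dim
  omega

/-- the map `a ↦ adj(A) a` modulo `J` -/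
noncomputable def adjMap (A : Matrix (Fin 3) (Fin 3) k[X][X]) (J : Ideal k[X][X]) :
    (Fin 3 → k[X][X]) →ₗ[k] (Fin 3 → k[X][X] ⧸ J) :=
  LinearMap.pi fun i => (mkJ J) ∘ₗ (LinearMap.proj i) ∘ₗ
    ((Matrix.mulVecLin A.adjugate).restrictScalars k)

lemma adjMap_apply (a : Fin 3 → k[X][X]) (i : Fin 3) :
    adjMap A J a i = mkJ J ((A.adjugate *ᵥ a) i) := rfl

lemma mem_ker_adjMap (a : Fin 3 → k[X][X]) :
    a ∈ LinearMap.ker (adjMap A J) ↔ ∀ i, (A.adjugate *ᵥ a) i ∈ J := by
  rw [LinearMap.mem_ker, funext_iff]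
  exact forall_congr' fun i => mkJ_eq_zero

/-- multiples of a vector -/
noncomputable def multMap (y : Fin 3 → k[X][X] ⧸ J) : (k[X][X] ⧸ J) →ₗ[k] (Fin 3 → k[X][X] ⧸ J) :=
  LinearMap.pi fun i => LinearMap.mulRight k (y i)

lemma multMap_apply (y : Fin 3 → k[X][X] ⧸ J) (z : k[X][X] ⧸ J) (i : Fin 3) :
    multMap y z i = z * y i := rfl

instance finite_pi_En {ι : Type} [Finite ι] (n : ℕ) (d : ι → ℕ) :
    Module.Finite k ↥(Submodule.pi Set.univ (fun i => En n (d i)) :
      Submodule k (ι → k[X][X])) := by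
  have e : ↥(Submodule.pi Set.univ (fun i => En n (d i)) : Submodule k (ι → k[X][X])) ≃ₗ[k]
      (Π i, ↥(En n (d i) : Submodule k k[X][X])) :=
    { toFun := fun v i => ⟨v.1 i, v.2 i trivial⟩
      invFun := fun v => ⟨fun i => v i, fun i _ => (v i).2⟩
      left_inv := fun _ => rfl
      right_inv := fun _ => rfl
      map_add' := fun _ _ => rfl
      map_smul' := fun _ _ => rfl }
  exact Module.Finite.equiv e.symm

lemma finrank_pi_En {ι : Type} [Fintype ι] (n : ℕ) (d : ι → ℕ) :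
    finrank k ↥(Submodule.pi Set.univ (fun i => En n (d i)) : Submodule k (ι → k[X][X])) =
      ∑ i, finrank k (En n (d i) : Submodule k k[X][X]) := by
  have e : ↥(Submodule.pi Set.univ (fun i => En n (d i)) : Submodule k (ι → k[X][X])) ≃ₗ[k]
      (Π i, ↥(En n (d i) : Submodule k k[X][X])) :=
    { toFun := fun v i => ⟨v.1 i, v.2 i trivial⟩
      invFun := fun v => ⟨fun i => v i, fun i _ => (v i).2⟩
      left_inv := fun _ => rfl
      right_inv := fun _ => rfl
      map_add' := fun _ _ => rfl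
      map_smul' := fun _ _ => rfl }
  have hf : ∀ i, Module.Free k ↥(En n (d i) : Submodule k k[X][X]) := by
    intro i
    exact Module.Free.of_divisionRing k ↥(En n (d i) : Submodule k k[X][X])
  rw [e.finrank_eq, Module.finrank_pi_fintype]

/-- [C2] -/
theorem finrank_En_le_adj (hJ : Half m g f J) (hA : Quadrics g f A) (n d : ℕ) :
    3 * finrank k (En n d : Submodule k k[X][X]) ≤
      finrank k ↥(LinearMap.ker (adjMap A J) ⊓
        Submodule.pi Set.univ (fun _ : Fin 3 => En n d) : Submodule k (Fin 3 → k[X][X])) +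
        3 * (2 * m + 1) := by
  have := hJ.fin
  obtain ⟨y, hy⟩ := exists_cyclic hJ hA
  have h1 := finrank_le_ker_inf (adjMap A J) (Submodule.pi Set.univ (fun _ : Fin 3 => En n d))
    (multMap y) (fun a _ => by
      obtain ⟨z, hz⟩ := hy a
      exact ⟨z, funext fun i => (hz i).symm⟩)
  rw [finrank_pi_En] at h1
  have h2 := hJ.dim
  simp only [Finset.sum_const, Finset.card_univ, Fintype.card_fin, smul_eq_mul] at h1
  omega

/-- the conditions defining `modX` -/
noncomputable def xMap (A : Matrix (Fin 3) (Fin 3) k[X][X]) (J : Ideal k[X][X]) :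
    (Fin 4 → k[X][X]) →ₗ[k] ((k[X][X] ⧸ J) × (Fin 3 → k[X][X] ⧸ J)) :=
  LinearMap.prod (mkJ J ∘ₗ LinearMap.proj 0) (adjMap A J ∘ₗ LinearMap.funLeft k _ Fin.succ)

lemma ker_xMap : LinearMap.ker (xMap A J) = (modX A J).restrictScalars k := by
  ext v
  rw [LinearMap.mem_ker]
  change ((mkJ J (v 0), adjMap A J (av v)) = 0) ↔ (v 0 ∈ J ∧ ∀ i, (A.adjugate *ᵥ av v) i ∈ J)
  rw [Prod.mk_eq_zero, mkJ_eq_zero, ← LinearMap.mem_ker, mem_ker_adjMap]

/-- [C], for `X` at once -/
theorem finrank_le_Yd (hJ : Half m g f J) (hA : Quadrics g f A) (n d : ℕ) :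
    finrank k (En n (d + 3) : Submodule k k[X][X]) +
      3 * finrank k (En n (d + 1) : Submodule k k[X][X]) ≤
      finrank k ↥(Yd n d (modX A J)) + 6 * (2 * m + 1) := by
  have := hJ.fin
  obtain ⟨y, hy⟩ := exists_cyclic hJ hA
  have h1 := finrank_le_ker_inf (xMap A J) (Submodule.pi Set.univ (fun i => En n (d + wt4 i)))
    (LinearMap.prodMap (LinearMap.id (R := k) (M := k[X][X] ⧸ J)) (multMap y)) (fun a _ => by
      obtain ⟨z, hz⟩ := hy (av a)
      refine ⟨(mkJ J (a 0), z), Prod.ext rfl (funext fun i => (hz i).symm)⟩)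
  rw [finrank_pi_En, ker_xMap, Module.finrank_prod, Fin.sum_univ_four] at h1
  have h2 := hJ.dim
  change finrank k (En n (d + 3) : Submodule k k[X][X]) +
    finrank k (En n (d + 1) : Submodule k k[X][X]) +
    finrank k (En n (d + 1) : Submodule k k[X][X]) +
    finrank k (En n (d + 1) : Submodule k k[X][X]) ≤ finrank k ↥(Yd n d (modX A J)) + _ at h1
  omega

end Field

end Vale.Agent.P287.H946
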