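import Vale.Agent.P287.Theta.Count
import Vale.Agent.P287.H946.Cert

/-!
The adjugate has rank one modulo the determinant, and rank one symmetric matrices over Artinian
rings; any size.
-/

namespace Vale.Agent.P287.H946

open Matrix

section Adj

variable {ι : Type*} [Fintype ι] [DecidableEq ι] {R : Type*} [CommRing R]

/-- the determinant of the matrix with columns `u` at `i` and `v` at `k`, the other columns being
those of the identity matrix -/
lemma det_two_cols {i k : ι} (h : i ≠ k) (u v : ι → R) :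
    (((1 : Matrix ι ι R).updateCol i u).updateCol k v).det = u i * v k - u k * v i := by
  set U : Matrix ι (Fin 2) R :=
    Matrix.of fun a c => ![u a - (1 : Matrix ι ι R) a i, v a - (1 : Matrix ι ι R) a k] c with hU
  set V : Matrix (Fin 2) ι R :=
    Matrix.of fun c b => ![(1 : Matrix ι ι R) i b, (1 : Matrix ι ι R) k b] c with hV
  have h1 : ((1 : Matrix ι ι R).updateCol i u).updateCol k v = 1 + U * V := by
    ext a b
    rw [updateCol_apply, updateCol_apply, Matrix.add_apply, Matrix.mul_apply, Fin.sum_univ_two]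
    simp only [hU, hV, Matrix.of_apply, Matrix.cons_val_zero, Matrix.cons_val_one]
    by_cases hb : b = k
    · subst hb
      rw [if_pos rfl, Matrix.one_apply_ne h, Matrix.one_apply_eq]
      ring
    · rw [if_neg hb, Matrix.one_apply_ne (Ne.symm hb : k ≠ b)]
      by_cases hb' : b = i
      · subst hb'
        rw [if_pos rfl, Matrix.one_apply_eq]
        ring
      · rw [if_neg hb', Matrix.one_apply_ne (Ne.symm hb' : i ≠ b)]
        ring
  rw [h1, Matrix.det_one_add_mul_comm, Matrix.det_fin_two]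
  have e : ∀ (w : ι → R) (j : ι), ∑ a, (1 : Matrix ι ι R) j a * w a = w j := by
    intro w j
    have := congrFun (Matrix.one_mulVec w) j
    rw [Matrix.mulVec, dotProduct] at this
    exact this
  simp only [Matrix.add_apply, Matrix.mul_apply, hU, hV, Matrix.of_apply, Matrix.cons_val_zero,
    Matrix.cons_val_one]
  rw [e (fun a => u a - (1 : Matrix ι ι R) a i), e (fun a => v a - (1 : Matrix ι ι R) a k),
    e (fun a => u a - (1 : Matrix ι ι R) a i), e (fun a => v a - (1 : Matrix ι ι R) a k)]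
  simp only [Matrix.one_apply_eq, Matrix.one_apply_ne h, Matrix.one_apply_ne (Ne.symm h),
    Matrix.one_apply_ne (show (0 : Fin 2) ≠ 1 by decide),
    Matrix.one_apply_ne (show (1 : Fin 2) ≠ 0 by decide)]
  ring

lemma adj_minor_mul (A : Matrix ι ι R) {i k : ι} (h : i ≠ k) (j l : ι) :
    ∃ D, A.det * (A.adjugate i j * A.adjugate k l - A.adjugate k j * A.adjugate i l) =
      A.det * (A.det * D) := by
  set d : ι → R := fun b => if b = i ∨ b = k then A.det else 1 with hd
  set B : Matrix ι ι R := (A.updateCol i (Pi.single j 1)).updateCol k (Pi.single l 1) with hB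
  have hcol : ∀ j : ι, A *ᵥ (fun a => A.adjugate a j) = fun a => A.det * (Pi.single j 1 : ι → R) a := by
    intro j
    funext a
    have := congrFun (congrFun (Matrix.mul_adjugate A) a) j
    rw [Matrix.mul_apply] at this
    rw [Matrix.mulVec, dotProduct, this, Matrix.smul_apply, smul_eq_mul, Matrix.one_apply,
      Pi.single_apply]
  have h1 : A * (((1 : Matrix ι ι R).updateCol i (fun a => A.adjugate a j)).updateCol k
      (fun a => A.adjugate a l)) = B * Matrix.diagonal d := by
    ext a b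
    rw [Matrix.mul_apply, Matrix.mul_diagonal]
    simp only [updateCol_apply, hB]
    by_cases hb : b = k
    · have h5 : d b = A.det := if_pos (Or.inr hb)
      rw [h5]
      simp only [if_pos hb]
      have := congrFun (hcol l) a
      rw [Matrix.mulVec, dotProduct] at this
      rw [this, mul_comm]
    · simp only [if_neg hb]
      by_cases hb' : b = i
      · have h5 : d b = A.det := if_pos (Or.inl hb')
        rw [h5]
        simp only [if_pos hb']
        have := congrFun (hcol j) a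
        rw [Matrix.mulVec, dotProduct] at this
        rw [this, mul_comm]
      · have h5 : d b = 1 := if_neg (by tauto)
        rw [h5]
        simp only [if_neg hb', mul_one]
        have := congrFun (congrFun (Matrix.mul_one A) a) b
        rw [Matrix.mul_apply] at this
        exact this
  have h2 := congrArg Matrix.det h1
  rw [Matrix.det_mul, det_two_cols h, Matrix.det_mul, Matrix.det_diagonal] at h2
  have h3 : ∏ b, d b = A.det * A.det := by
    rw [hd, Finset.prod_ite, Finset.prod_const_one, mul_one, Finset.prod_const]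
    have h4 : (Finset.univ.filter fun b => b = i ∨ b = k) = {i, k} := by
      ext b
      simp
    rw [h4, Finset.card_pair h, pow_two]
  rw [h3] at h2
  refine ⟨B.det, ?_⟩
  rw [h2]
  ring

/-- The `2 × 2` minors of the adjugate are divisible by the determinant. -/
theorem adj_minor (A : Matrix ι ι R) (i j k l : ι) :
    A.det ∣ A.adjugate i j * A.adjugate k l - A.adjugate i l * A.adjugate k j := by
  by_cases h : i = k
  · subst h
    rw [mul_comm (A.adjugate i l), sub_self]
    exact dvd_zero _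
  have h1 : (Matrix.mvPolynomialX ι ι ℤ).det ∣
      (Matrix.mvPolynomialX ι ι ℤ).adjugate i j * (Matrix.mvPolynomialX ι ι ℤ).adjugate k l -
      (Matrix.mvPolynomialX ι ι ℤ).adjugate i l * (Matrix.mvPolynomialX ι ι ℤ).adjugate k j := by
    obtain ⟨D, hD⟩ := adj_minor_mul (Matrix.mvPolynomialX ι ι ℤ) h j l
    refine ⟨D, ?_⟩
    have := mul_left_cancel₀ (Matrix.det_mvPolynomialX_ne_zero ι ℤ) hD
    rw [← this]
    ring
  set φ : MvPolynomial (ι × ι) ℤ →+* R :=
    MvPolynomial.eval₂Hom (Int.castRingHom R) (fun p : ι × ι => A p.1 p.2) with hφ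
  have hA : φ.mapMatrix (Matrix.mvPolynomialX ι ι ℤ) = A :=
    Matrix.mvPolynomialX_map_eval₂ (Int.castRingHom R) A
  have hadj : ∀ a b, φ ((Matrix.mvPolynomialX ι ι ℤ).adjugate a b) = A.adjugate a b := by
    intro a b
    have := RingHom.map_adjugate φ (Matrix.mvPolynomialX ι ι ℤ)
    rw [hA] at this
    rw [← this]
    rfl
  have h2 := map_dvd φ h1
  rw [map_sub, map_mul, map_mul, hadj, hadj, hadj, hadj, RingHom.map_det, hA] at h2
  exact h2

end Adj

section Rank

variable {ι : Type*} [Fintype ι] {R : Type*} [CommRing R]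

lemma rank_one_mulVec {N : Matrix ι ι R} (hN : ∀ i j k l, N i j * N k l = N i l * N k j)
    (b y : ι → R) (i k : ι) : (N *ᵥ b) i * (N *ᵥ y) k = (N *ᵥ y) i * (N *ᵥ b) k := by
  simp only [mulVec, dotProduct, Finset.sum_mul_sum]
  rw [Finset.sum_comm]
  refine Finset.sum_congr rfl fun l _ => Finset.sum_congr rfl fun j _ => ?_
  have := hN i j k l
  linear_combination b j * y l * this

lemma rank_one_dot {N : Matrix ι ι R} (hN : ∀ i j k l, N i j * N k l = N i l * N k j)
    (a b x y : ι → R) :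
    (a ⬝ᵥ N *ᵥ b) * (x ⬝ᵥ N *ᵥ y) = (a ⬝ᵥ N *ᵥ y) * (x ⬝ᵥ N *ᵥ b) := by
  simp only [dotProduct, Finset.sum_mul_sum]
  refine Finset.sum_congr rfl fun i _ => Finset.sum_congr rfl fun k _ => ?_
  have := rank_one_mulVec hN b y i k
  simp only [mulVec, dotProduct] at this ⊢
  linear_combination a i * x k * this

/-- the rank one identity modulo `f` -/
lemma minor_dotG {f : R} {N : Matrix ι ι R} (hm : ∀ i j k l, f ∣ N i j * N k l - N i l * N k j)
    (a b x y : ι → R) :
    f ∣ (a ⬝ᵥ N *ᵥ b) * (x ⬝ᵥ N *ᵥ y) - (a ⬝ᵥ N *ᵥ y) * (x ⬝ᵥ N *ᵥ b) := by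
  set π := Ideal.Quotient.mk (Ideal.span {f}) with hπ
  have h0 : ∀ x, π x = 0 ↔ f ∣ x := fun x => by
    rw [hπ, Ideal.Quotient.eq_zero_iff_mem, Ideal.mem_span_singleton]
  have hd : ∀ a b : ι → R, π (a ⬝ᵥ N *ᵥ b) = (π ∘ a) ⬝ᵥ (N.map π) *ᵥ (π ∘ b) := by
    intro a b
    rw [RingHom.map_dotProduct]
    congr 1
    funext i
    exact RingHom.map_mulVec π N b i
  rw [← h0, map_sub, map_mul, map_mul, hd, hd, hd, hd, sub_eq_zero]
  refine rank_one_dot (fun i j k l => ?_) _ _ _ _
  have := hm i j k l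
  rw [← h0, map_sub, map_mul, map_mul, sub_eq_zero] at this
  exact this

end Rank

section Unit

variable {ι : Type} [Fintype ι] [DecidableEq ι]

/-- a vector on which a rank one symmetric form is invertible, over an Artinian ring -/
lemma exists_unit_vectorG {A : Type} [CommRing A] [IsArtinianRing A] (N : Matrix ι ι A)
    (hN : ∀ P : Ideal A, P.IsMaximal → ∃ i, N i i ∉ P) :
    ∃ r : ι → A, IsUnit (r ⬝ᵥ N *ᵥ r) := by
  classical
  obtain ⟨T, hTfin, e, κ, hunit⟩ := Theta.exists_unit_combo (fun k l => N l k) hN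
  set r : ι → A := fun i => ∑ t, if κ t = i then e t else 0 with hr
  refine ⟨r, ?_⟩
  have hrN : r ⬝ᵥ N *ᵥ r = ∑ t, ∑ t', e t * (e t' * N (κ t) (κ t')) := by
    have hd : ∀ b : ι → A, r ⬝ᵥ b = ∑ t, e t * b (κ t) := by
      intro b
      rw [dotProduct]
      simp only [hr, Finset.sum_mul, ite_mul, zero_mul]
      rw [Finset.sum_comm]
      refine Finset.sum_congr rfl fun t _ => ?_
      rw [Finset.sum_ite_eq Finset.univ (κ t) (fun i => e t * b i), if_pos (Finset.mem_univ _)]
    rw [hd]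
    refine Finset.sum_congr rfl fun t _ => ?_
    rw [mulVec, dotProduct_comm, hd, Finset.mul_sum]
  rw [hrN]
  exact hunit

/-- the image of a rank one symmetric matrix, modulo `J`, is cyclic -/
theorem exists_cyclicG {R : Type} [CommRing R] {J : Ideal R} [IsArtinianRing (R ⧸ J)]
    {N : Matrix ι ι R} (hNs : N.IsSymm) (hm : ∀ i j k l, N i j * N k l - N i l * N k j ∈ J)
    (hrank : Ideal.span (Set.range fun ij : ι × ι => N ij.1 ij.2) ⊔ J = ⊤) :
    ∃ y : ι → R ⧸ J, ∀ a : ι → R, ∃ z : R ⧸ J, ∀ i,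
      Ideal.Quotient.mk J ((N *ᵥ a) i) = z * y i := by
  set π := Ideal.Quotient.mk J with hπ
  set N' : Matrix ι ι (R ⧸ J) := N.map π with hN'
  have hNs' : ∀ i j, N' i j = N' j i := by
    intro i j
    rw [hN', Matrix.map_apply, Matrix.map_apply, hNs.apply]
  have hNm : ∀ i j k l, N' i j * N' k l = N' i l * N' k j := by
    intro i j k l
    have := hm i j k l
    rw [← Ideal.Quotient.eq_zero_iff_mem, map_sub, map_mul, map_mul, sub_eq_zero] at this
    exact this
  obtain ⟨r, hr⟩ := exists_unit_vectorG N' (by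
    intro P hP
    by_contra hcon
    push Not at hcon
    have h1 : ∀ i j, N' i j ∈ P := by
      intro i j
      have h2 : N' i j * N' i j ∈ P := by
        have h3 := hNm i i j j
        rw [hNs' j i] at h3
        rw [← h3]
        exact P.mul_mem_right _ (hcon i)
      exact (hP.isPrime.mem_or_mem h2).elim id id
    have h2 : (⊤ : Ideal R) ≤ P.comap π := by
      rw [← hrank]
      refine sup_le ?_ ?_
      · rw [Ideal.span_le]
        rintro _ ⟨ij, rfl⟩
        exact h1 ij.1 ij.2
      · intro x hx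
        rw [Ideal.mem_comap, hπ, Ideal.Quotient.eq_zero_iff_mem.2 hx]
        exact P.zero_mem
    have h3 : (1 : R) ∈ P.comap π := h2 trivial
    rw [Ideal.mem_comap, map_one] at h3
    exact hP.ne_top ((Ideal.eq_top_iff_one P).2 h3))
  obtain ⟨w, hw⟩ := hr.exists_left_inv
  refine ⟨N' *ᵥ r, fun a => ?_⟩
  refine ⟨w * (r ⬝ᵥ N' *ᵥ (π ∘ a)), fun i => ?_⟩
  have h1 : π ((N *ᵥ a) i) = (N' *ᵥ (π ∘ a)) i := by
    rw [RingHom.map_mulVec]
  rw [h1]
  have h2 : (N' *ᵥ (π ∘ a)) i * (r ⬝ᵥ N' *ᵥ r) = (N' *ᵥ r) i * (r ⬝ᵥ N' *ᵥ (π ∘ a)) := by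
    have h3 := rank_one_dot hNm (Pi.single i 1) (π ∘ a) r r
    rw [single_dotProduct, single_dotProduct, one_mul, one_mul] at h3
    exact h3
  calc (N' *ᵥ (π ∘ a)) i = (w * (r ⬝ᵥ N' *ᵥ r)) * (N' *ᵥ (π ∘ a)) i := by rw [hw, one_mul]
    _ = w * ((N' *ᵥ (π ∘ a)) i * (r ⬝ᵥ N' *ᵥ r)) := by ring
    _ = w * (r ⬝ᵥ N' *ᵥ (π ∘ a)) * (N' *ᵥ r) i := by rw [h2]; ring

/-- the form `aᵀ N b` takes values in `(f,g)` on the vectors with `N a ∈ J^ι` -/
theorem dot_mem_ofG {R : Type*} [CommRing R] {f g : R} {N : Matrix ι ι R} (hNs : N.IsSymm)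
    (hm : ∀ i j k l, f ∣ N i j * N k l - N i l * N k j)
    (hrank : Ideal.span (Set.range fun ij : ι × ι => N ij.1 ij.2) ⊔ Ideal.span {f, g} = ⊤)
    {J : Ideal R} (hJ : ∀ a ∈ J, ∀ b ∈ J, a * b ∈ Ideal.span {f, g})
    {a b : ι → R} (ha : ∀ i, (N *ᵥ a) i ∈ J) (hb : ∀ i, (N *ᵥ b) i ∈ J) :
    a ⬝ᵥ N *ᵥ b ∈ Ideal.span {f, g} := by
  set y := a ⬝ᵥ N *ᵥ b with hy
  have h1 : ∀ i j, y * N i j ∈ Ideal.span {f, g} := by
    intro i j
    have h2 := minor_dotG hm a b (Pi.single i 1) (Pi.single j 1)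
    have h3 : a ⬝ᵥ N *ᵥ (Pi.single j 1 : ι → R) = (N *ᵥ a) j := by
      rw [dotProduct_mulVec, ← mulVec_transpose, hNs.eq, dotProduct_single_one]
    have h4 : (N *ᵥ (Pi.single j 1 : ι → R)) i = N i j := by
      rw [mulVec_single_one, col_apply]
    rw [single_dotProduct, single_dotProduct, one_mul, one_mul, h3, h4] at h2
    have h5 : y * N i j = (y * N i j - (N *ᵥ a) j * (N *ᵥ b) i) + (N *ᵥ a) j * (N *ᵥ b) i := by
      rw [sub_add_cancel]
    rw [h5]
    exact add_mem (dvd_mem h2) (hJ _ (ha j) _ (hb i))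
  have h2 : (⊤ : Ideal R) ≤ (Ideal.span {f, g}).colon {y} := by
    rw [← hrank]
    refine sup_le ?_ ?_
    · rw [Ideal.span_le]
      rintro _ ⟨ij, rfl⟩
      rw [SetLike.mem_coe, Submodule.mem_colon_singleton, smul_eq_mul, mul_comm]
      exact h1 ij.1 ij.2
    · intro z hz
      rw [Submodule.mem_colon_singleton, smul_eq_mul]
      exact Ideal.mul_mem_right _ _ hz
  have h3 := h2 (show (1 : R) ∈ ⊤ from trivial)
  rw [Submodule.mem_colon_singleton, one_smul] at h3
  exact h3

end Unit

end Vale.Agent.P287.H946
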