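import Vale.Agent.P287.EvenN.Spec
import Vale.Agent.P287.H946.CodimC
import Vale.Agent.P287.H946.EGen

/-!
Block [CE]: the linear conditions defining `X = {v : adj(M) v ∈ J⁴}` have codimension at most `3 n`.
-/

namespace Vale.Agent.P287.H946

open Polynomial Module Matrix Vale.Agent.P287.Odd Vale.Agent.P287.EvenN

lemma adj_isSymm {ι R : Type*} [Fintype ι] [DecidableEq ι] [CommRing R] {M : Matrix ι ι R}
    (hM : M.IsSymm) : M.adjugate.IsSymm := by
  have h := Matrix.adjugate_transpose M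
  rw [hM.eq] at h
  exact h

section Field

variable {k : Type} [Field k] {n : ℕ} {g f : k[X][X]} {J : Ideal k[X][X]}
  {M : Matrix (Fin 4) (Fin 4) k[X][X]}

lemma isArtinian_quotN (hJ : HalfN n g f J) : IsArtinianRing (k[X][X] ⧸ J) := by
  have := hJ.fin
  exact IsArtinianRing.of_finite k _

lemma exists_cyclic4 (hJ : HalfN n g f J) (hM : Quad4 g f M) :
    ∃ y : Fin 4 → k[X][X] ⧸ J, ∀ a : Fin 4 → k[X][X], ∃ z : k[X][X] ⧸ J, ∀ i,
      Ideal.Quotient.mk J ((M.adjugate *ᵥ a) i) = z * y i := by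
  have := isArtinian_quotN hJ
  refine exists_cyclicG (adj_isSymm hM.symm) (fun i j k l => ?_) ?_
  · have h := adj_minor M i j k l
    rw [hM.det] at h
    obtain ⟨q, hq⟩ := h
    rw [hq]
    exact Ideal.mul_mem_right _ _ hJ.f_mem
  · rw [eq_top_iff, ← hM.rank]
    refine sup_le_sup_left ?_ _
    rw [Ideal.span_le]
    rintro _ (rfl | rfl)
    · exact hJ.f_mem
    · exact hJ.g_mem

/-- the map `a ↦ adj(M) a` modulo `J` -/
noncomputable def adjMapG {ι : Type} [Fintype ι] [DecidableEq ι] (M : Matrix ι ι k[X][X])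
    (J : Ideal k[X][X]) : (ι → k[X][X]) →ₗ[k] (ι → k[X][X] ⧸ J) :=
  LinearMap.pi fun i => (mkJ J) ∘ₗ (LinearMap.proj i) ∘ₗ
    ((Matrix.mulVecLin M.adjugate).restrictScalars k)

lemma mem_ker_adjMapG {ι : Type} [Fintype ι] [DecidableEq ι] {M : Matrix ι ι k[X][X]}
    (a : ι → k[X][X]) :
    a ∈ LinearMap.ker (adjMapG M J) ↔ ∀ i, (M.adjugate *ᵥ a) i ∈ J := by
  rw [LinearMap.mem_ker, funext_iff]
  exact forall_congr' fun i => mkJ_eq_zero

/-- multiples of a vector -/
noncomputable def multMapG {ι : Type} (y : ι → k[X][X] ⧸ J) :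
    (k[X][X] ⧸ J) →ₗ[k] (ι → k[X][X] ⧸ J) :=
  LinearMap.pi fun i => LinearMap.mulRight k (y i)

lemma ker_adjMapG : LinearMap.ker (adjMapG M J) = (modX4 M J).restrictScalars k := by
  ext v
  exact mem_ker_adjMapG v

theorem stmtCE' (hJ : HalfN n g f J) (hM : Quad4 g f M) (d : ℕ) :
    finrank k (En n (d + 1) : Submodule k k[X][X]) +
      3 * finrank k (En n d : Submodule k k[X][X]) ≤ finrank k (Yd4 n d (modX4 M J)) + 3 * n := by
  have := hJ.fin
  obtain ⟨y, hy⟩ := exists_cyclic4 hJ hM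
  have h1 := finrank_le_ker_inf (adjMapG M J) (Submodule.pi Set.univ (fun i => En n (d + wt0 i)))
    (multMapG y) (fun a _ => by
      obtain ⟨z, hz⟩ := hy a
      exact ⟨z, funext fun i => (hz i).symm⟩)
  rw [finrank_pi_En, ker_adjMapG, Fin.sum_univ_four] at h1
  have h2 := hJ.dim
  change finrank k (En n (d + 1) : Submodule k k[X][X]) +
    finrank k (En n d : Submodule k k[X][X]) +
    finrank k (En n d : Submodule k k[X][X]) +
    finrank k (En n d : Submodule k k[X][X]) ≤ finrank k ↥(Yd4 n d (modX4 M J)) + _ at h1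
  omega

/-- [CE] -/
theorem stmtCE : StmtCE := fun _ _ _ _ _ _ _ hJ hM d => stmtCE' hJ hM d

/-- the form takes values in `(f,g)` on `X` -/
theorem phi4_mem (hJ : HalfN n g f J) (hM : Quad4 g f M) {v w : Fin 4 → k[X][X]}
    (hv : v ∈ modX4 M J) (hw : w ∈ modX4 M J) :
    v ⬝ᵥ M.adjugate *ᵥ w ∈ Ideal.span {f, g} :=
  dot_mem_ofG (adj_isSymm hM.symm) (fun i j k l => by
    have h := adj_minor M i j k l
    rwa [hM.det] at h) hM.rank hJ.mul_mem hv hw

end Field

end Vale.Agent.P287.H946
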