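import Vale.Agent.P287.H946.J0
import Vale.Agent.P287.H946.ECodim

/-!
The ideal `J = {c : c² ∈ (f,g)}` for a curve `g = 0` of degree `n`, and the rank condition for the
symmetric `4 × 4` matrix of the fibration.
-/

namespace Vale.Agent.P287.H946

open Polynomial Module Matrix Vale.Agent.P287.Odd Vale.Agent.P287.EvenN Vale.Agent.P287.Theta

section Field

variable {k : Type} [Field k] {n : ℕ} {g f : k[X][X]}

lemma CurveN.pos (hC : CurveN n g f) : 0 < n := by
  rcases Nat.eq_zero_or_pos n with h | h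
  · exfalso
    have h1 := hC.deg
    rw [h] at h1
    have h2 := hC.monic.natDegree_eq_zero.1 h1
    exact hC.prime.not_isUnit (h2 ▸ isUnit_one)
  · exact h

/-- Multiplication by `f` followed by division by `g`. -/
noncomputable def mulModN (hC : CurveN n g f) (d : ℕ) :
    (En n d : Submodule k k[X][X]) →ₗ[k] (En n (d + 6) : Submodule k k[X][X]) where
  toFun p := ⟨((p : k[X][X]) * f) %ₘ g, En_modByMonic hC.monic hC.deg hC.wd
    (Wd.mul' p.2.1 hC.inf.1) (CurveN.pos hC)⟩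
  map_add' p q := by
    apply Subtype.ext
    simp only [Submodule.coe_add, add_mul, add_modByMonic]
  map_smul' c p := by
    apply Subtype.ext
    simp only [SetLike.val_smul, RingHom.id_apply]
    have h : ∀ q : k[X][X], c • q = C (C c) * q := by
      intro q
      ext i j
      simp [coeff_smul, coeff_C_mul]
    rw [h, h, mul_assoc, ← smul_eq_C_mul, ← smul_eq_C_mul, smul_modByMonic]

lemma mulModN_injective (hC : CurveN n g f) (d : ℕ) : Function.Injective (mulModN hC d) := by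
  refine (injective_iff_map_eq_zero _).mpr ?_
  intro p hp
  have h1 : ((p : k[X][X]) * f) %ₘ g = 0 := congrArg Subtype.val hp
  rw [modByMonic_eq_zero_iff_dvd hC.monic] at h1
  have h2 : g ∣ (p : k[X][X]) := (hC.prime.dvd_or_dvd h1).resolve_right hC.ndvd
  apply Subtype.ext
  by_contra h0
  have h3 := natDegree_le_of_dvd h2 h0
  have h4 := En_natDegree (CurveN.pos hC) p.2
  rw [hC.deg] at h3
  omega

variable {I : Ideal k[X][X]}

lemma finrank_range_leN (hC : CurveN n g f) (hf : f ∈ I) (hg : g ∈ I) {d : ℕ} (hd : n ≤ d + 1) :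
    finrank k (LinearMap.range ((mkJ I).domRestrict (En n (d + 6)))) ≤ 6 * n := by
  have h1 := Theta.rank_le_of_complex (K := k) (U := (En n d : Submodule k k[X][X]))
    (V := (En n (d + 6) : Submodule k k[X][X])) (W := k[X][X] ⧸ I) (mulModN hC d)
    ((mkJ I).domRestrict (En n (d + 6))) (mulModN_injective hC d) (by
      intro x
      change mkJ I (((x : k[X][X]) * f) %ₘ g) = 0
      rw [mkJ_modByMonic hg, mkJ_eq_zero]
      exact I.mul_mem_left _ hf)
  have h2 := two_mul_finrank_En (k := k) (n := n) (d := d) hd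
  have h3 := two_mul_finrank_En (k := k) (n := n) (d := d + 6) (by omega)
  have h4 : n * (2 * (d + 6) + 3) = n * (2 * d + 3) + 12 * n := by
    ring
  omega

lemma exists_subset_rangeN (hC : CurveN n g f) (hg : g ∈ I) (s : Finset (k[X][X] ⧸ I)) :
    ∃ d, n ≤ d + 1 ∧ ∀ a ∈ s,
      a ∈ LinearMap.range ((mkJ I).domRestrict (En n (d + 6))) := by
  classical
  induction s using Finset.induction_on with
  | empty => exact ⟨n, by omega, by simp⟩
  | insert a s ha ih =>
    obtain ⟨d, hd, hs⟩ := ih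
    obtain ⟨p, rfl⟩ := Ideal.Quotient.mk_surjective a
    obtain ⟨e, he⟩ := exists_Wd p
    refine ⟨d + e, by omega, fun b hb => ?_⟩
    rw [Finset.mem_insert] at hb
    rcases hb with rfl | hb
    · refine ⟨⟨p %ₘ g, En_modByMonic hC.monic hC.deg hC.wd (Wd.mono' he (by omega))
        (CurveN.pos hC)⟩, ?_⟩
      exact mkJ_modByMonic hg p
    · obtain ⟨q, hq⟩ := hs b hb
      exact ⟨⟨q, Wd.mono' q.2.1 (by omega), q.2.2⟩, hq⟩

theorem finite_quotN (hC : CurveN n g f) (hf : f ∈ I) (hg : g ∈ I) :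
    Module.Finite k (k[X][X] ⧸ I) ∧ finrank k (k[X][X] ⧸ I) ≤ 6 * n := by
  refine Theta.rank_le_of_forall (K := k) (W := k[X][X] ⧸ I) (6 * n) ?_
  intro s hs
  obtain ⟨d, hd, hds⟩ := exists_subset_rangeN hC hg s
  have h1 := Theta.card_le_of_subset_range (K := k)
    (V := (En n (d + 6) : Submodule k k[X][X])) (W := k[X][X] ⧸ I)
    ((mkJ I).domRestrict (En n (d + 6))) s hs hds
  exact h1.trans (finrank_range_leN hC hf hg hd)

/-- the half dimensional ideal -/
theorem halfN_colonJ (hC : CurveN n g f) {G U V : k[X][X]} (hsq : f ∣ G ^ 2 - g * U)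
    (hu : U * V - 1 ∈ Ideal.span {f, g}) (hnzd : ∀ x, f ∣ g * x → f ∣ x) :
    HalfN n g f (colonJ f g G) := by
  obtain ⟨hfin, hdim⟩ := finite_quotN (k := k) (I := Ideal.span {f, g}) hC f_mem g_mem
  have hGG : G * G ∈ Ideal.span {f, g} := by
    have h1 : G * G = (G ^ 2 - g * U) + g * U := by ring
    rw [h1]
    exact add_mem (dvd_mem hsq) (Ideal.mul_mem_right _ _ g_mem)
  set I : Ideal k[X][X] := Ideal.span {f, g} with hI
  have hle : I ≤ colonJ f g G := fun x hx => I.mul_mem_left _ hx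
  have hfinJ : Module.Finite k (k[X][X] ⧸ colonJ f g G) :=
    Module.Finite.of_surjective (Ideal.Quotient.factorₐ k hle).toLinearMap
      (Ideal.Quotient.factor_surjective hle)
  refine ⟨I.mul_mem_left _ f_mem, I.mul_mem_left _ g_mem,
    fun a ha b hb => mul_mem_of hsq hu hnzd ha hb, hfinJ, ?_⟩
  -- the map `c ↦ G c`
  set T : (k[X][X] ⧸ I) →ₗ[k] (k[X][X] ⧸ I) := LinearMap.mulLeft k (mkJ I G) with hT
  have hTmk : ∀ x : k[X][X], T (mkJ I x) = mkJ I (G * x) := fun x => rfl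
  have hTT : LinearMap.range T ≤ LinearMap.ker T := by
    rintro _ ⟨x, rfl⟩
    obtain ⟨x, rfl⟩ := Ideal.Quotient.mk_surjective x
    change T (T (mkJ I x)) = 0
    rw [hTmk, hTmk, mkJ_eq_zero, ← mul_assoc]
    exact I.mul_mem_right _ hGG
  have h2 := Submodule.finrank_mono hTT
  have h3 := T.finrank_range_add_finrank_ker
  -- `R/J` embeds in the range of `T`
  let φ : (k[X][X] ⧸ colonJ f g G) →ₗ[k] (k[X][X] ⧸ I) :=
    ((Submodule.liftQ ((colonJ f g G).restrictScalars k) ((T ∘ₗ mkJ I : k[X][X] →ₗ[k] _)) (by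
      intro x hx
      rw [LinearMap.mem_ker, LinearMap.comp_apply, hTmk, mkJ_eq_zero]
      exact hx)))
  have hφ : ∀ x, φ (Ideal.Quotient.mk _ x) = T (mkJ I x) := fun x => rfl
  have hinj : Function.Injective φ := by
    refine (injective_iff_map_eq_zero _).mpr ?_
    intro x hx
    obtain ⟨x, rfl⟩ := Ideal.Quotient.mk_surjective x
    rw [hφ, hTmk, mkJ_eq_zero] at hx
    exact Ideal.Quotient.eq_zero_iff_mem.2 hx
  have hr : LinearMap.range φ ≤ LinearMap.range T := by
    rintro _ ⟨x, rfl⟩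
    obtain ⟨x, rfl⟩ := Ideal.Quotient.mk_surjective x
    exact ⟨mkJ I x, (hφ x).symm⟩
  have h4 := Submodule.finrank_mono hr
  have h5 := LinearMap.finrank_range_of_inj hinj
  omega

end Field

variable {n : ℕ} {g f : ℂ[X][X]}

lemma not_dvd_of_curveN (hC : CurveN n g f) (hf : Prime f) : ¬ f ∣ g :=
  not_dvd_of_primes hC.prime hf hC.ndvd

/-- the ideal `{c : c² ∈ (f,g)}` -/
theorem exists_halfN (hC : CurveN n g f) (hf : Prime f)
    (hsm : ∀ x y : ℂ, evalEval x y f = 0 →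
      f ∉ (Ideal.span {C (X - C x), X - C (C y)} : Ideal ℂ[X][X]) ^ 2)
    (hsq : ∃ s c, ¬ g ∣ c ∧ g ∣ c ^ 2 * f - s ^ 2) :
    ∃ J : Ideal ℂ[X][X], (∀ c, c ∈ J ↔ c ^ 2 ∈ Ideal.span {f, g}) ∧ HalfN n g f J := by
  have hfg := not_dvd_of_curveN hC hf
  obtain ⟨hfin, -⟩ := finite_quotN (k := ℂ) (I := Ideal.span {f, g}) hC f_mem g_mem
  obtain ⟨G, U, V, h1, h2⟩ := exists_G' hf hsm hC.prime hfg hsq hfin
  have hnzd : ∀ x, f ∣ g * x → f ∣ x := fun x hx => (hf.dvd_or_dvd hx).resolve_left hfg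
  refine ⟨colonJ f g G, fun c => ⟨fun hc => ?_, fun hc => ?_⟩, halfN_colonJ hC h1 h2 hnzd⟩
  · rw [pow_two]
    exact mul_mem_of h1 h2 hnzd hc hc
  · obtain ⟨b, a, h3⟩ := Ideal.mem_span_pair.1 hc
    obtain ⟨s, hs⟩ := h1
    obtain ⟨d, q, hd⟩ := sqrt_dvd f hf hsm (G * c) g (U * a) hfg
      ⟨s * c ^ 2 + g * U * b, by linear_combination c ^ 2 * hs - g * U * h3⟩
    exact Ideal.mem_span_pair.2 ⟨q, d, by linear_combination -hd⟩

/-- the rank condition for a symmetric matrix of any size with smooth determinant -/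
theorem rank_of_smoothG {r : ℕ} {M : Matrix (Fin (r + 1)) (Fin (r + 1)) ℂ[X][X]}
    (hdet : M.det = f)
    (hsm : ∀ x y : ℂ, evalEval x y f = 0 →
      f ∉ (Ideal.span {C (X - C x), X - C (C y)} : Ideal ℂ[X][X]) ^ 2) :
    Ideal.span (Set.range fun ij : Fin (r + 1) × Fin (r + 1) => M.adjugate ij.1 ij.2) ⊔
      Ideal.span {f, g} = ⊤ := by
  by_contra hne
  obtain ⟨x, y, hxy⟩ := exists_common_point _ hne
  have hp : evalEval x y f = 0 := hxy f (Ideal.mem_sup_right f_mem)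
  obtain ⟨i, j, hij⟩ := adj_ne_zero M (x := x) (y := y) (by rw [hdet, hp]) (by
      intro h
      rw [hdet] at h
      exact hsm x y hp h)
  exact hij (hxy _ (Ideal.mem_sup_left (Ideal.subset_span ⟨(i, j), rfl⟩)))

/-- the rank condition for the symmetric `4 × 4` matrix of the fibration -/
theorem quad4_of_smooth {M : Matrix (Fin 4) (Fin 4) ℂ[X][X]} (hM : M.IsSymm)
    (hw : ∀ i j, Wd (1 + wt0 i + wt0 j) (M i j)) (hdet : M.det = f)
    (hsm : ∀ x y : ℂ, evalEval x y f = 0 →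
      f ∉ (Ideal.span {C (X - C x), X - C (C y)} : Ideal ℂ[X][X]) ^ 2) : Quad4 g f M :=
  ⟨hM, hw, hdet, rank_of_smoothG hdet hsm⟩

section Mem

variable {J : Ideal ℂ[X][X]} {M : Matrix (Fin 4) (Fin 4) ℂ[X][X]}

/-- the linear condition defining `X` is the quadratic one: `v ∈ X` iff `v · adj(M) v ∈ (f,g)` -/
theorem mem_modX4_iff (hJ : ∀ c, c ∈ J ↔ c ^ 2 ∈ Ideal.span {f, g}) (hH : HalfN n g f J) (hM : Quad4 g f M)
    (v : Fin 4 → ℂ[X][X]) :
    v ∈ modX4 M J ↔ v ⬝ᵥ M.adjugate *ᵥ v ∈ Ideal.span {f, g} := by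
  constructor
  · intro hv
    exact phi4_mem hH hM hv hv
  · intro hv i
    rw [hJ]
    have h1 := minor_dotG (N := M.adjugate) (f := f) (fun i j k l => by
      have h := adj_minor M i j k l
      rwa [hM.det] at h) v v (Pi.single i 1) (Pi.single i 1)
    have h2 : v ⬝ᵥ M.adjugate *ᵥ (Pi.single i 1 : Fin 4 → ℂ[X][X]) = (M.adjugate *ᵥ v) i := by
      rw [dotProduct_mulVec, ← mulVec_transpose, (adj_isSymm hM.symm).eq, dotProduct_single_one]
    have h3 : (M.adjugate *ᵥ (Pi.single i 1 : Fin 4 → ℂ[X][X])) i = M.adjugate i i := by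
      rw [mulVec_single_one, col_apply]
    rw [single_dotProduct, single_dotProduct, one_mul, one_mul, h2, h3, ← pow_two] at h1
    have h4 : (M.adjugate *ᵥ v) i ^ 2 = (v ⬝ᵥ M.adjugate *ᵥ v) * M.adjugate i i -
        ((v ⬝ᵥ M.adjugate *ᵥ v) * M.adjugate i i - (M.adjugate *ᵥ v) i ^ 2) := by
      rw [sub_sub_cancel]
    rw [h4]
    exact sub_mem (Ideal.mul_mem_right _ _ hv) (dvd_mem h1)

end Mem

end Vale.Agent.P287.H946
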