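import Mathlib

/-!
Extension of the base field for bivariate polynomials `k[x][y] → F[x][y]`.
-/

namespace Vale.Agent.P287.H946

open Polynomial Module

section PMap

variable {R R' : Type*} [CommRing R] [CommRing R']

/-- apply an additive map to the coefficients -/
noncomputable def pmap (ψ : R' →+ R) : R'[X] →+ R[X] where
  toFun p := ∑ i ∈ p.support, monomial i (ψ (p.coeff i))
  map_zero' := by simp
  map_add' p q := by
    ext n
    have h : ∀ p : R'[X], (∑ i ∈ p.support, monomial i (ψ (p.coeff i))).coeff n =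
        ψ (p.coeff n) := by
      intro p
      rw [finsetSum_coeff]
      simp only [coeff_monomial]
      rw [Finset.sum_ite_eq' p.support n]
      split_ifs with h
      · rfl
      · rw [notMem_support_iff.1 h, map_zero]
    rw [h, coeff_add, coeff_add, h, h, map_add]

lemma coeff_pmap (ψ : R' →+ R) (p : R'[X]) (n : ℕ) : (pmap ψ p).coeff n = ψ (p.coeff n) := by
  change (∑ i ∈ p.support, monomial i (ψ (p.coeff i))).coeff n = _
  rw [finsetSum_coeff]
  simp only [coeff_monomial]
  rw [Finset.sum_ite_eq' p.support n]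
  split_ifs with h
  · rfl
  · rw [notMem_support_iff.1 h, map_zero]

lemma pmap_map_mul (ι : R →+* R') (ψ : R' →+ R) (hψ : ∀ r x, ψ (ι r * x) = r * ψ x)
    (p : R[X]) (q : R'[X]) : pmap ψ (p.map ι * q) = p * pmap ψ q := by
  ext n
  rw [coeff_pmap, coeff_mul, coeff_mul, map_sum]
  refine Finset.sum_congr rfl fun x _ => ?_
  rw [coeff_map, hψ, coeff_pmap]

lemma pmap_mul_map (ι : R →+* R') (ψ : R' →+ R) (hψ : ∀ r x, ψ (x * ι r) = ψ x * r)
    (a : R') (p : R[X]) : pmap ψ (C a * p.map ι) = C (ψ a) * p := by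
  ext n
  rw [coeff_pmap, coeff_C_mul, coeff_C_mul, coeff_map, hψ]

end PMap

variable {k F : Type*} [Field k] [Field F] [Algebra k F]

/-- base change of bivariate polynomials -/
noncomputable def bc (k F : Type*) [Field k] [Field F] [Algebra k F] : k[X][X] →+* F[X][X] :=
  mapRingHom (mapRingHom (algebraMap k F))

lemma coeff_bc (p : k[X][X]) (i j : ℕ) :
    ((bc k F p).coeff i).coeff j = algebraMap k F ((p.coeff i).coeff j) := by
  simp [bc]

/-- coordinate functional -/
noncomputable def cf (φ : F →ₗ[k] k) : F[X][X] →+ k[X][X] :=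
  pmap (pmap φ.toAddMonoidHom)

lemma coeff_cf (φ : F →ₗ[k] k) (x : F[X][X]) (i j : ℕ) :
    ((cf φ x).coeff i).coeff j = φ ((x.coeff i).coeff j) := by
  rw [cf, coeff_pmap, coeff_pmap]
  rfl

lemma cf_bc_mul (φ : F →ₗ[k] k) (p : k[X][X]) (x : F[X][X]) :
    cf φ (bc k F p * x) = p * cf φ x := by
  refine pmap_map_mul (mapRingHom (algebraMap k F)) (pmap φ.toAddMonoidHom) (fun r y => ?_) p x
  refine pmap_map_mul (algebraMap k F) φ.toAddMonoidHom (fun s z => ?_) r y
  change φ (algebraMap k F s * z) = s * φ z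
  rw [← Algebra.smul_def, map_smul, smul_eq_mul]

lemma cf_smul_bc (φ : F →ₗ[k] k) (a : F) (p : k[X][X]) :
    cf φ (C (C a) * bc k F p) = C (C (φ a)) * p := by
  ext i j
  rw [coeff_cf, coeff_C_mul, coeff_C_mul, coeff_bc, coeff_C_mul, coeff_C_mul, mul_comm a,
    ← Algebra.smul_def, map_smul, smul_eq_mul, mul_comm]

/-- Expansion in terms of a basis. -/
lemma exists_expand {κ : Type*} (b : Basis κ k F) (x : F[X][X]) :
    ∃ s : Finset κ, x = ∑ i ∈ s, C (C (b i)) * bc k F (cf (b.coord i) x) := by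
  classical
  refine ⟨x.support.biUnion fun m => (x.coeff m).support.biUnion fun n =>
    (b.repr ((x.coeff m).coeff n)).support, ?_⟩
  set s := x.support.biUnion fun m => (x.coeff m).support.biUnion fun n =>
    (b.repr ((x.coeff m).coeff n)).support with hs
  ext m n
  rw [finsetSum_coeff, finsetSum_coeff]
  have h1 : ∀ i ∈ s, ((C (C (b i)) * bc k F (cf (b.coord i) x)).coeff m).coeff n =
      b.repr ((x.coeff m).coeff n) i • b i := by
    intro i _
    rw [coeff_C_mul, coeff_C_mul, coeff_bc, coeff_cf, Algebra.smul_def, mul_comm]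
    rfl
  rw [Finset.sum_congr rfl h1]
  have h2 : (b.repr ((x.coeff m).coeff n)).support ⊆ s := by
    by_cases h0 : (x.coeff m).coeff n = 0
    · rw [h0]
      simp
    · have hm : m ∈ x.support := by
        rw [Polynomial.mem_support_iff]
        intro h3
        rw [h3, coeff_zero] at h0
        exact h0 rfl
      have hn : n ∈ (x.coeff m).support := Polynomial.mem_support_iff.2 h0
      intro i hi
      rw [hs, Finset.mem_biUnion]
      exact ⟨m, hm, Finset.mem_biUnion.2 ⟨n, hn, hi⟩⟩
  conv_lhs => rw [← b.linearCombination_repr ((x.coeff m).coeff n)]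
  rw [Finsupp.linearCombination_apply, Finsupp.sum_of_support_subset _ h2 _ (by simp)]

/-- Divisibility can be tested on coordinates. -/
lemma bc_dvd_iff (f : k[X][X]) (x : F[X][X]) : bc k F f ∣ x ↔ ∀ φ : F →ₗ[k] k, f ∣ cf φ x := by
  constructor
  · rintro ⟨y, rfl⟩ φ
    rw [cf_bc_mul]
    exact dvd_mul_right _ _
  · intro h
    obtain ⟨s, hs⟩ := exists_expand (Basis.ofVectorSpace k F) x
    rw [hs]
    refine Finset.dvd_sum fun i _ => ?_
    exact (map_dvd (bc k F) (h _)).mul_left _

/-- Membership in an ideal generated by two elements can be tested on coordinates. -/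
lemma bc_mem_iff (f g : k[X][X]) (x : F[X][X]) :
    x ∈ Ideal.span {bc k F f, bc k F g} ↔ ∀ φ : F →ₗ[k] k, cf φ x ∈ Ideal.span {f, g} := by
  constructor
  · intro hx φ
    obtain ⟨a, b, rfl⟩ := Ideal.mem_span_pair.1 hx
    rw [map_add, mul_comm a, mul_comm b, cf_bc_mul, cf_bc_mul]
    exact Ideal.mem_span_pair.2 ⟨cf φ a, cf φ b, by ring⟩
  · intro h
    obtain ⟨s, hs⟩ := exists_expand (Basis.ofVectorSpace k F) x
    rw [hs]
    refine sum_mem fun i _ => ?_
    obtain ⟨a, b, hab⟩ := Ideal.mem_span_pair.1 (h ((Basis.ofVectorSpace k F).coord i))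
    refine Ideal.mul_mem_left _ _ (Ideal.mem_span_pair.2 ⟨bc k F a, bc k F b, ?_⟩)
    rw [← hab, map_add, map_mul, map_mul]

lemma bc_nzd {f g : k[X][X]} (h : ∀ x, f ∣ g * x → f ∣ x) (x : F[X][X])
    (hx : bc k F f ∣ bc k F g * x) : bc k F f ∣ x := by
  rw [bc_dvd_iff] at hx ⊢
  intro φ
  have := hx φ
  rw [cf_bc_mul] at this
  exact h _ this

lemma bc_injective : Function.Injective (bc k F) := by
  rw [bc, coe_mapRingHom]
  refine Polynomial.map_injective _ ?_
  rw [coe_mapRingHom]
  exact Polynomial.map_injective _ (algebraMap k F).injective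

end Vale.Agent.P287.H946
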