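import Vale.Agent.P287.H946.QuotDim
import Vale.Agent.P287.Theta.Family

/-!
Block [J0]: over `ℂ`, for a smooth curve `f = 0` and a splitting curve `g = 0`, the ideal
`{c : c² ∈ (f,g)}` is half dimensional; the rank condition for the symmetric matrix of quadrics.
-/

namespace Vale.Agent.P287.H946

open Polynomial Module Matrix Vale.Agent.P287.Odd Vale.Agent.P287.Theta

/-- from the family of local square roots to one global `G` -/
theorem exists_G' {f g : ℂ[X][X]} (hf : Prime f)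
    (hsm : ∀ x y : ℂ, evalEval x y f = 0 →
      f ∉ (Ideal.span {C (X - C x), X - C (C y)} : Ideal ℂ[X][X]) ^ 2)
    (hgp : Prime g) (hfg : ¬ f ∣ g) (hsq : ∃ s c, ¬ g ∣ c ∧ g ∣ c ^ 2 * f - s ^ 2)
    (hfin : Module.Finite ℂ (ℂ[X][X] ⧸ Ideal.span {f, g})) :
    ∃ G U V : ℂ[X][X], f ∣ G ^ 2 - g * U ∧ U * V - 1 ∈ Ideal.span {f, g} := by
  classical
  obtain ⟨ι, γ, u, hγ, hu⟩ := exists_family hf hfg hsm
    (fun x y hp => even_norm hgp hsq hp (hsm x y hp))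
  have hart : IsArtinianRing (ℂ[X][X] ⧸ Ideal.span {f, g}) := IsArtinianRing.of_finite ℂ _
  set π : ℂ[X][X] →ₐ[ℂ] (ℂ[X][X] ⧸ Ideal.span {f, g}) := Ideal.Quotient.mkₐ ℂ _ with hπ
  have hπ0 : ∀ p, π p = 0 ↔ p ∈ Ideal.span {f, g} := fun p => Ideal.Quotient.eq_zero_iff_mem
  obtain ⟨T, hTfin, e, κ, hunit⟩ := exists_unit_combo (fun k l => π (u k l)) (by
    intro P hP
    obtain ⟨x, y, hxy⟩ := exists_point (π := π) hfin P hP
    obtain ⟨k, hk⟩ := hu x y ((hxy f).mp (by rw [(hπ0 f).2 f_mem]; exact P.zero_mem))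
    exact ⟨k, fun h1 => hk ((hxy _).mp h1)⟩)
  choose E hE using fun t => Ideal.Quotient.mk_surjective (e t)
  set G : ℂ[X][X] := ∑ t, E t * γ (κ t) with hG
  set U : ℂ[X][X] := ∑ t, ∑ t', E t * (E t' * u (κ t') (κ t)) with hU
  have hUu : IsUnit (π U) := by
    have : π U = ∑ t, ∑ t', e t * (e t' * π (u (κ t') (κ t))) := by
      rw [hU, map_sum]
      refine Finset.sum_congr rfl fun t _ => ?_
      rw [map_sum]
      refine Finset.sum_congr rfl fun t' _ => ?_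
      rw [map_mul, map_mul, ← hE, ← hE]
      rfl
    rw [this]
    exact hunit
  have hGG : f ∣ G ^ 2 - g * U := by
    have : G ^ 2 - g * U = ∑ t, ∑ t', E t * E t' * (γ (κ t') * γ (κ t) - g * u (κ t') (κ t)) := by
      rw [pow_two, hG, hU, Finset.sum_mul, Finset.mul_sum, ← Finset.sum_sub_distrib]
      refine Finset.sum_congr rfl fun t _ => ?_
      rw [Finset.mul_sum, Finset.mul_sum, ← Finset.sum_sub_distrib]
      exact Finset.sum_congr rfl fun t' _ => by ring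
    rw [this]
    exact Finset.dvd_sum fun t _ => Finset.dvd_sum fun t' _ => (hγ _ _).mul_left _
  obtain ⟨v, hv⟩ := hUu.exists_right_inv
  obtain ⟨V, rfl⟩ := Ideal.Quotient.mk_surjective v
  refine ⟨G, U, V, hGG, ?_⟩
  rw [← hπ0, map_sub, map_mul, map_one, sub_eq_zero]
  exact hv

lemma not_dvd_of_primes {R : Type*} [CommRing R] [IsDomain R] {f g : R} (hg : Prime g)
    (hf : Prime f) (h : ¬ g ∣ f) : ¬ f ∣ g := by
  intro h1
  exact h (hf.irreducible.associated_of_dvd hg.irreducible h1).symm.dvd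

variable {m : ℕ} {g f : ℂ[X][X]}

lemma not_dvd_of_curve (hC : Curve m g f) (hf : Prime f) : ¬ f ∣ g :=
  not_dvd_of_primes hC.prime hf hC.ndvd

/-- [J0] the ideal `{c : c² ∈ (f,g)}` -/
theorem exists_half (hC : Curve m g f) (hf : Prime f)
    (hsm : ∀ x y : ℂ, evalEval x y f = 0 →
      f ∉ (Ideal.span {C (X - C x), X - C (C y)} : Ideal ℂ[X][X]) ^ 2)
    (hsq : ∃ s c, ¬ g ∣ c ∧ g ∣ c ^ 2 * f - s ^ 2) :
    ∃ J : Ideal ℂ[X][X], (∀ c, c ∈ J ↔ c ^ 2 ∈ Ideal.span {f, g}) ∧ Half m g f J := by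
  have hfg := not_dvd_of_curve hC hf
  obtain ⟨hfin, -⟩ := finite_quot (k := ℂ) (I := Ideal.span {f, g}) hC f_mem g_mem
  obtain ⟨G, U, V, h1, h2⟩ := exists_G' hf hsm hC.prime hfg hsq hfin
  have hnzd : ∀ x, f ∣ g * x → f ∣ x := fun x hx => (hf.dvd_or_dvd hx).resolve_left hfg
  refine ⟨colonJ f g G, fun c => ⟨fun hc => ?_, fun hc => ?_⟩, half_colonJ hC h1 h2 hnzd⟩
  · rw [pow_two]
    exact mul_mem_of h1 h2 hnzd hc hc
  · obtain ⟨b, a, h3⟩ := Ideal.mem_span_pair.1 hc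
    obtain ⟨s, hs⟩ := h1
    obtain ⟨d, q, hd⟩ := sqrt_dvd f hf hsm (G * c) g (U * a) hfg
      ⟨s * c ^ 2 + g * U * b, by linear_combination c ^ 2 * hs - g * U * h3⟩
    exact Ideal.mem_span_pair.2 ⟨q, d, by linear_combination -hd⟩

/-- square roots of `f` on the curve -/
lemma sqrt_mem {J : Ideal ℂ[X][X]} (hJ : ∀ c, c ∈ J ↔ c ^ 2 ∈ Ideal.span {f, g})
    {s₀ c₀ : ℂ[X][X]} (h : g ∣ c₀ ^ 2 * f - s₀ ^ 2) : s₀ ∈ J := by
  rw [hJ]
  obtain ⟨q, hq⟩ := h
  exact Ideal.mem_span_pair.2 ⟨c₀ ^ 2, -q, by linear_combination hq⟩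

/-- the rank condition for a symmetric matrix with smooth determinant -/
theorem quadrics_of_smooth {A : Matrix (Fin 3) (Fin 3) ℂ[X][X]} (hA : A.IsSymm)
    (hw : ∀ i j, Wd 2 (A i j)) (hdet : A.det = -f)
    (hsm : ∀ x y : ℂ, evalEval x y f = 0 →
      f ∉ (Ideal.span {C (X - C x), X - C (C y)} : Ideal ℂ[X][X]) ^ 2) : Quadrics g f A := by
  refine ⟨hA, hw, hdet, ?_⟩
  by_contra hne
  obtain ⟨x, y, hxy⟩ := exists_common_point _ hne
  have hp : evalEval x y f = 0 := hxy f (Ideal.mem_sup_right f_mem)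
  obtain ⟨i, j, hij⟩ := adj_ne_zero A (x := x) (y := y) (by
      rw [hdet, ← coe_evalEvalRingHom, map_neg, coe_evalEvalRingHom, hp, neg_zero]) (by
      intro h
      refine hsm x y hp ?_
      rw [hdet] at h
      have := Ideal.neg_mem_iff _ |>.1 h
      exact this)
  exact hij (hxy _ (Ideal.mem_sup_left (Ideal.subset_span ⟨(i, j), rfl⟩)))

end Vale.Agent.P287.H946
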