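import Vale.Agent.P287.H946.CodimC

/-!
The dimension of `k[x,y]/(f,g)` is at most `6 n`, from good coordinates for the curve `g = 0`.
-/

namespace Vale.Agent.P287.H946

open Polynomial Module Matrix Vale.Agent.P287.Odd

/-- the ideal `((f,g) : G)` -/
def colonJ {R : Type*} [CommRing R] (f g G : R) : Ideal R where
  carrier := {c | G * c ∈ Ideal.span {f, g}}
  add_mem' := fun {a b} ha hb => by
    have h : G * (a + b) = G * a + G * b := mul_add _ _ _
    rw [Set.mem_ofPred_eq, h]
    exact add_mem ha hb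
  zero_mem' := by
    rw [Set.mem_ofPred_eq, mul_zero]
    exact zero_mem _
  smul_mem' := fun c x hx => by
    rw [Set.mem_ofPred_eq, smul_eq_mul, mul_left_comm]
    exact Ideal.mul_mem_left _ _ hx

lemma mem_colonJ {R : Type*} [CommRing R] {f g G c : R} :
    c ∈ colonJ f g G ↔ G * c ∈ Ideal.span {f, g} := Iff.rfl

section Field

variable {k : Type} [Field k] {m : ℕ} {g f : k[X][X]}

lemma En_modByMonic {n : ℕ} (hg : g.Monic) (hgn : g.natDegree = n) (hgW : Wd n g) {d : ℕ}
    {p : k[X][X]} (hp : Wd d p) (hn : 0 < n) : p %ₘ g ∈ (En n d : Submodule k k[X][X]) := by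
  refine ⟨?_, ?_⟩
  · rw [Wd_iff_TW] at *
    exact H684.TW.modByMonic hg hgn hgW hp
  · intro j hj
    have hg1 : g ≠ 1 := by
      rintro rfl
      rw [natDegree_one] at hgn
      omega
    refine coeff_eq_zero_of_natDegree_lt ?_
    have := natDegree_modByMonic_lt p hg hg1
    omega

lemma En_natDegree {n d : ℕ} {p : k[X][X]} (hn : 0 < n) (hp : p ∈ (En n d : Submodule k k[X][X])) :
    p.natDegree < n := by
  by_contra h
  have h1 := hp.2 p.natDegree (by omega)
  rw [coeff_natDegree, leadingCoeff_eq_zero] at h1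
  rw [h1, natDegree_zero] at h
  omega

lemma Wd.mul' {d e : ℕ} {p q : k[X][X]} (hp : Wd d p) (hq : Wd e q) : Wd (d + e) (p * q) := by
  rw [Wd_iff_TW] at *
  exact hp.mul hq

/-- Multiplication by `f` followed by division by `g`. -/
noncomputable def mulMod (hC : Curve m g f) (d : ℕ) :
    (En (2 * m + 1) d : Submodule k k[X][X]) →ₗ[k]
      (En (2 * m + 1) (d + 6) : Submodule k k[X][X]) where
  toFun p := ⟨((p : k[X][X]) * f) %ₘ g, En_modByMonic hC.monic hC.deg hC.wd
    (Wd.mul' p.2.1 hC.inf.1) (by omega)⟩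
  map_add' p q := by
    apply Subtype.ext
    simp only [Submodule.coe_add, add_mul, add_modByMonic]
  map_smul' c p := by
    apply Subtype.ext
    simp only [SetLike.val_smul, RingHom.id_apply]
    have h : ∀ q : k[X][X], c • q = C (C c) * q := by
      intro q
      ext i j
      simp [coeff_smul, coeff_C_mul]
    rw [h, h, mul_assoc, ← smul_eq_C_mul, ← smul_eq_C_mul, smul_modByMonic]

lemma mulMod_injective (hC : Curve m g f) (d : ℕ) : Function.Injective (mulMod hC d) := by
  refine (injective_iff_map_eq_zero _).mpr ?_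
  intro p hp
  have h1 : ((p : k[X][X]) * f) %ₘ g = 0 := congrArg Subtype.val hp
  rw [modByMonic_eq_zero_iff_dvd hC.monic] at h1
  have h2 : g ∣ (p : k[X][X]) := (hC.prime.dvd_or_dvd h1).resolve_right hC.ndvd
  apply Subtype.ext
  by_contra h0
  have h3 := natDegree_le_of_dvd h2 h0
  have h4 := En_natDegree (by omega) p.2
  rw [hC.deg] at h3
  omega

variable {I : Ideal k[X][X]}

lemma mkJ_modByMonic (hg : g ∈ I) (p : k[X][X]) :
    mkJ I (p %ₘ g) = mkJ I p := by
  rw [← sub_eq_zero, ← map_sub, mkJ_eq_zero]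
  have h1 := modByMonic_add_div p g
  have h2 : p %ₘ g - p = -(g * (p /ₘ g)) := by linear_combination h1
  rw [h2]
  exact I.neg_mem (I.mul_mem_right _ hg)

lemma finrank_range_le (hC : Curve m g f) (hf : f ∈ I) (hg : g ∈ I) {d : ℕ} (hd : 2 * m ≤ d) :
    finrank k (LinearMap.range ((mkJ I).domRestrict (En (2 * m + 1) (d + 6)))) ≤
      6 * (2 * m + 1) := by
  have h1 := Theta.rank_le_of_complex (K := k) (U := (En (2 * m + 1) d : Submodule k k[X][X]))
    (V := (En (2 * m + 1) (d + 6) : Submodule k k[X][X])) (W := k[X][X] ⧸ I) (mulMod hC d)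
    ((mkJ I).domRestrict (En (2 * m + 1) (d + 6))) (mulMod_injective hC d) (by
      intro x
      change mkJ I (((x : k[X][X]) * f) %ₘ g) = 0
      rw [mkJ_modByMonic hg, mkJ_eq_zero]
      exact I.mul_mem_left _ hf)
  have h2 := two_mul_finrank_En (k := k) (n := 2 * m + 1) (d := d) (by omega)
  have h3 := two_mul_finrank_En (k := k) (n := 2 * m + 1) (d := d + 6) (by omega)
  have h4 : (2 * m + 1) * (2 * (d + 6) + 3) = (2 * m + 1) * (2 * d + 3) + 12 * (2 * m + 1) := by
    ring
  omega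

lemma exists_Wd (p : k[X][X]) : ∃ d, Wd d p := by
  refine ⟨∑ j ∈ p.support, ((p.coeff j).natDegree + j), ?_⟩
  rw [Wd_iff_TW]
  intro j hj
  exact Finset.single_le_sum (f := fun j => (p.coeff j).natDegree + j) (fun _ _ => Nat.zero_le _)
    (Polynomial.mem_support_iff.mpr hj)

lemma Wd.mono' {d e : ℕ} {p : k[X][X]} (hp : Wd d p) (h : d ≤ e) : Wd e p :=
  fun i j hij => hp i j (by omega)

lemma exists_subset_range (hC : Curve m g f) (hg : g ∈ I) (s : Finset (k[X][X] ⧸ I)) :
    ∃ d, 2 * m ≤ d ∧ ∀ a ∈ s,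
      a ∈ LinearMap.range ((mkJ I).domRestrict (En (2 * m + 1) (d + 6))) := by
  classical
  induction s using Finset.induction_on with
  | empty => exact ⟨2 * m, le_rfl, by simp⟩
  | insert a s ha ih =>
    obtain ⟨d, hd, hs⟩ := ih
    obtain ⟨p, rfl⟩ := Ideal.Quotient.mk_surjective a
    obtain ⟨e, he⟩ := exists_Wd p
    refine ⟨d + e, by omega, fun b hb => ?_⟩
    rw [Finset.mem_insert] at hb
    rcases hb with rfl | hb
    · refine ⟨⟨p %ₘ g, En_modByMonic hC.monic hC.deg hC.wd (Wd.mono' he (by omega)) (by omega)⟩, ?_⟩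
      exact mkJ_modByMonic hg p
    · obtain ⟨q, hq⟩ := hs b hb
      exact ⟨⟨q, Wd.mono' q.2.1 (by omega), q.2.2⟩, hq⟩

theorem finite_quot (hC : Curve m g f) (hf : f ∈ I) (hg : g ∈ I) :
    Module.Finite k (k[X][X] ⧸ I) ∧ finrank k (k[X][X] ⧸ I) ≤ 6 * (2 * m + 1) := by
  refine Theta.rank_le_of_forall (K := k) (W := k[X][X] ⧸ I) (6 * (2 * m + 1)) ?_
  intro s hs
  obtain ⟨d, hd, hds⟩ := exists_subset_range hC hg s
  have h1 := Theta.card_le_of_subset_range (K := k)
    (V := (En (2 * m + 1) (d + 6) : Submodule k k[X][X])) (W := k[X][X] ⧸ I)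
    ((mkJ I).domRestrict (En (2 * m + 1) (d + 6))) s hs hds
  exact h1.trans (finrank_range_le hC hf hg hd)

/-- the half dimensional ideal -/
theorem half_colonJ (hC : Curve m g f) {G U V : k[X][X]} (hsq : f ∣ G ^ 2 - g * U)
    (hu : U * V - 1 ∈ Ideal.span {f, g}) (hnzd : ∀ x, f ∣ g * x → f ∣ x) :
    Half m g f (colonJ f g G) := by
  obtain ⟨hfin, hdim⟩ := finite_quot (k := k) (I := Ideal.span {f, g}) hC f_mem g_mem
  have hGG : G * G ∈ Ideal.span {f, g} := by
    have h1 : G * G = (G ^ 2 - g * U) + g * U := by ring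
    rw [h1]
    exact add_mem (dvd_mem hsq) (Ideal.mul_mem_right _ _ g_mem)
  set I : Ideal k[X][X] := Ideal.span {f, g} with hI
  have hle : I ≤ colonJ f g G := fun x hx => I.mul_mem_left _ hx
  have hfinJ : Module.Finite k (k[X][X] ⧸ colonJ f g G) :=
    Module.Finite.of_surjective (Ideal.Quotient.factorₐ k hle).toLinearMap
      (Ideal.Quotient.factor_surjective hle)
  refine ⟨I.mul_mem_left _ f_mem, I.mul_mem_left _ g_mem,
    fun a ha b hb => mul_mem_of hsq hu hnzd ha hb, hfinJ, ?_⟩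
  -- the map `c ↦ G c`
  set T : (k[X][X] ⧸ I) →ₗ[k] (k[X][X] ⧸ I) := LinearMap.mulLeft k (mkJ I G) with hT
  have hTmk : ∀ x : k[X][X], T (mkJ I x) = mkJ I (G * x) := fun x => rfl
  have hTT : LinearMap.range T ≤ LinearMap.ker T := by
    rintro _ ⟨x, rfl⟩
    obtain ⟨x, rfl⟩ := Ideal.Quotient.mk_surjective x
    change T (T (mkJ I x)) = 0
    rw [hTmk, hTmk, mkJ_eq_zero, ← mul_assoc]
    exact I.mul_mem_right _ hGG
  have h2 := Submodule.finrank_mono hTT
  have h3 := T.finrank_range_add_finrank_ker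
  -- `R/J` embeds in the range of `T`
  let φ : (k[X][X] ⧸ colonJ f g G) →ₗ[k] (k[X][X] ⧸ I) :=
    ((Submodule.liftQ ((colonJ f g G).restrictScalars k) ((T ∘ₗ mkJ I : k[X][X] →ₗ[k] _)) (by
      intro x hx
      rw [LinearMap.mem_ker, LinearMap.comp_apply, hTmk, mkJ_eq_zero]
      exact hx)))
  have hφ : ∀ x, φ (Ideal.Quotient.mk _ x) = T (mkJ I x) := fun x => rfl
  have hinj : Function.Injective φ := by
    refine (injective_iff_map_eq_zero _).mpr ?_
    intro x hx
    obtain ⟨x, rfl⟩ := Ideal.Quotient.mk_surjective x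
    rw [hφ, hTmk, mkJ_eq_zero] at hx
    exact Ideal.Quotient.eq_zero_iff_mem.2 hx
  have hr : LinearMap.range φ ≤ LinearMap.range T := by
    rintro _ ⟨x, rfl⟩
    obtain ⟨x, rfl⟩ := Ideal.Quotient.mk_surjective x
    exact ⟨mkJ I x, (hφ x).symm⟩
  have h4 := Submodule.finrank_mono hr
  have h5 := LinearMap.finrank_range_of_inj hinj
  omega

end Field

end Vale.Agent.P287.H946
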