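import Vale.Agent.P287.Theta.Dixon

/-!
Dixon's construction on a reduced curve: the polynomial `f` is squarefree and `h` is a nonzero
divisor modulo `f`.
-/

namespace Vale.Agent.P287.H946

open Polynomial Matrix Vale.Agent.P287.Theta

section minors

variable {R : Type*} [CommRing R] [IsDomain R] [UniqueFactorizationMonoid R]

theorem pow_dvd_det_sq {f : R} (hf : Squarefree f) {n : ℕ}
    (X : Matrix (Fin (n + 1)) (Fin (n + 1)) R) (h : RankOneMod f X) : f ^ n ∣ X.det := by
  have key : ∀ a : R, Squarefree a → RankOneMod a X → a ^ n ∣ X.det := by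
    intro a
    refine UniqueFactorizationMonoid.induction_on_prime
      (P := fun a => Squarefree a → RankOneMod a X → a ^ n ∣ X.det) a ?_ ?_ ?_
    · intro h0
      exact absurd h0 (not_squarefree_zero)
    · intro x hx _ _
      exact (hx.pow n).dvd
    · intro a p _ hp ih hsq hr
      have hpa : IsRelPrime p a := (squarefree_mul_iff.mp hsq).1
      have h1 : p ^ n ∣ X.det := pow_dvd_det hp X fun i j k l =>
        (dvd_mul_right p a).trans (hr i j k l)
      have h2 : a ^ n ∣ X.det := ih (squarefree_mul_iff.mp hsq).2.2 fun i j k l =>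
        (dvd_mul_left a p).trans (hr i j k l)
      rw [mul_pow]
      exact (hpa.pow).mul_dvd h1 h2
  exact key f hf h

lemma pow_dvd_adjugate_sq {f : R} (hf : Squarefree f) {n : ℕ}
    (X : Matrix (Fin (n + 2)) (Fin (n + 2)) R) (h : RankOneMod f X) (i j : Fin (n + 2)) :
    f ^ n ∣ X.adjugate i j := by
  rw [Matrix.adjugate_fin_succ_eq_det_submatrix]
  exact (pow_dvd_det_sq hf (X.submatrix j.succAbove i.succAbove) fun _ _ _ _ =>
    h _ _ _ _).mul_left _

end minors

variable {f h : ℂ[X][X]} {d : ℕ} {z : Fin 6 → ℂ} {c6 : ℂ} {m : ℕ} {β : Fin 6 → ℂ[X][X]}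

/-- Dixon's matrix. -/
theorem exists_dixon_sq (H : AtInfinity f h d z c6) (hreg : ∀ x, f ∣ h * x → f ∣ x)
    (hdm : 2 * (m + 1) = d + 5) (S : Sections f h m β) :
    ∃ A : Matrix (Fin 6) (Fin 6) ℂ[X][X], A.IsSymm ∧ (∀ i j, TD 5 (A i j)) ∧
      (∀ i j, f ∣ β i * β j - h * A i j) := by
  have h1 : ∀ i j, ∃ a, TD 5 a ∧ f ∣ β i * β j - h * a := by
    intro i j
    obtain ⟨a, ha⟩ := S.mul i j
    refine H.reduce ?_ (Th a).natDegree a le_rfl ha
    have := (S.td i).mul (S.td j)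
    rwa [← two_mul, hdm] at this
  choose A hA1 hA2 using h1
  refine ⟨Matrix.of A, ?_, hA1, hA2⟩
  refine Matrix.IsSymm.ext fun i j => ?_
  rw [Matrix.of_apply, Matrix.of_apply]
  have h2 : f ∣ h * (A j i - A i j) := by
    have : h * (A j i - A i j) = (β i * β j - h * A i j) - (β j * β i - h * A j i) := by ring
    rw [this]
    exact dvd_sub (hA2 i j) (hA2 j i)
  have h3 := hreg _ h2
  exact sub_eq_zero.mp (H.eq_zero_of_dvd ((hA1 j i).sub (hA1 i j)) h3)

lemma rankOne_dixon_sq (hreg : ∀ x, f ∣ h * x → f ∣ x) {A : Matrix (Fin 6) (Fin 6) ℂ[X][X]}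
    (hA : ∀ i j, f ∣ β i * β j - h * A i j) : RankOneMod f A := by
  intro i j k l
  have h1 : f ∣ h * (h * (A i j * A k l - A i l * A k j)) := by
    have : h * (h * (A i j * A k l - A i l * A k j)) =
        (β i * β l) * (β k * β j - h * A k j) + (h * A k j) * (β i * β l - h * A i l)
        - (β i * β j) * (β k * β l - h * A k l) - (h * A k l) * (β i * β j - h * A i j) := by ring
    rw [this]
    exact dvd_sub (dvd_sub (dvd_add ((hA k j).mul_left _) ((hA i l).mul_left _))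
      ((hA k l).mul_left _)) ((hA i j).mul_left _)
  exact hreg _ (hreg _ h1)

/-- Dixon's theorem on a reduced curve: a net of quadrics from six sections. -/
theorem exists_net_sq (hf : Squarefree f) (H : AtInfinity f h d z c6)
    (hreg : ∀ x, f ∣ h * x → f ∣ x) (hdm : 2 * (m + 1) = d + 5) (S : Sections f h m β) :
    ∃ (A M' : Matrix (Fin 6) (Fin 6) ℂ[X][X]) (c0 : ℂ), c0 ≠ 0 ∧ A.IsSymm ∧ M'.IsSymm ∧
      (∀ i j, TD 1 (M' i j)) ∧ (∀ i j, TD 5 (A i j)) ∧
      M' * A = f • (1 : Matrix (Fin 6) (Fin 6) ℂ[X][X]) ∧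
      M'.det = C (C c0) * f ∧ (∀ i j, f ∣ β i * β j - h * A i j) ∧ RankOneMod f A := by
  obtain ⟨A, hAs, hA5, hA⟩ := exists_dixon_sq H hreg hdm S
  have hr := rankOne_dixon_sq hreg hA
  have hf0 := H.ne_zero
  obtain ⟨c', hc'⟩ := pow_dvd_det_sq hf A hr
  have hdet30 : TD 30 A.det := TD_det A hA5
  have hf5 : TD 30 (f ^ 5) := H.hf.pow 5
  have hf5top : top 30 (f ^ 5) ≠ 0 := by
    have := top_pow H.hf 5
    rw [show 5 * 6 = 30 from rfl] at this
    rw [this]
    exact pow_ne_zero _ H.top_ne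
  have hc'0 : TD 0 c' := by
    refine TD_of_mul hf5 hf5top ?_
    rw [← hc']
    exact hdet30
  obtain ⟨κ, rfl⟩ := TD_zero_iff hc'0
  have hκ : κ ≠ 0 := by
    rintro rfl
    rw [C_0, C_0, mul_zero] at hc'
    have h1 := top_det A hA5
    rw [hc'] at h1
    exact det_top_dixon H hdm S hA5 hA (h1.symm.trans (by simp [top]))
  -- the adjugate
  choose M0 hM0 using fun i j => pow_dvd_adjugate_sq hf A hr i j
  have hf4 : TD 24 (f ^ 4) := H.hf.pow 4
  have hf4top : top 24 (f ^ 4) ≠ 0 := by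
    have := top_pow H.hf 4
    rw [show 4 * 6 = 24 from rfl] at this
    rw [this]
    exact pow_ne_zero _ H.top_ne
  have hM01 : ∀ i j, TD 1 (M0 i j) := by
    intro i j
    refine TD_of_mul hf4 hf4top ?_
    rw [← hM0]
    exact TD_adjugate A hA5 i j
  have hκi : (C (C κ⁻¹) : ℂ[X][X]) * C (C κ) = 1 := by
    rw [← C_mul, ← C_mul, inv_mul_cancel₀ hκ, C_1, C_1]
  set M' : Matrix (Fin 6) (Fin 6) ℂ[X][X] := Matrix.of fun i j => C (C κ⁻¹) * M0 i j with hM'
  have hMA : M' * A = f • (1 : Matrix (Fin 6) (Fin 6) ℂ[X][X]) := by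
    have h1 := Matrix.adjugate_mul A
    refine Matrix.ext fun i j => ?_
    have h2 := congrFun (congrFun h1 i) j
    rw [Matrix.mul_apply] at h2
    simp only [hM0] at h2
    have h3 : f ^ 4 * ((M' * A) i j) =
        f ^ 4 * ((f • (1 : Matrix (Fin 6) (Fin 6) ℂ[X][X])) i j) := by
      have h4 : f ^ 4 * ((M' * A) i j) = C (C κ⁻¹) * ∑ k, f ^ 4 * M0 i k * A k j := by
        rw [Matrix.mul_apply, Finset.mul_sum, Finset.mul_sum]
        refine Finset.sum_congr rfl fun k _ => ?_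
        rw [hM', Matrix.of_apply]
        ring
      rw [h4, h2, hc', Matrix.smul_apply, Matrix.smul_apply, smul_eq_mul, smul_eq_mul]
      linear_combination (f ^ 5 * (1 : Matrix (Fin 6) (Fin 6) ℂ[X][X]) i j) * hκi
    exact mul_left_cancel₀ (pow_ne_zero 4 hf0) h3
  refine ⟨A, M', κ⁻¹, inv_ne_zero hκ, hAs, ?_, ?_, hA5, hMA, ?_, hA, hr⟩
  · refine Matrix.IsSymm.ext fun i j => ?_
    rw [hM', Matrix.of_apply, Matrix.of_apply]
    congr 1
    have h1 : A.adjugate j i = A.adjugate i j := by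
      have := congrFun (congrFun (Matrix.adjugate_transpose A) j) i
      rw [hAs.eq, Matrix.transpose_apply] at this
      exact this.symm
    rw [hM0, hM0] at h1
    exact mul_left_cancel₀ (pow_ne_zero 4 hf0) h1
  · intro i j
    rw [hM', Matrix.of_apply]
    exact (hM01 i j).smul _
  · have h1 : M'.det * (f ^ 5 * C (C κ)) = f ^ 6 := by
      rw [← hc', ← Matrix.det_mul, hMA, Matrix.det_smul, Matrix.det_one, mul_one,
        Fintype.card_fin]
    refine mul_right_cancel₀ (pow_ne_zero 5 hf0) ?_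
    have h2 : M'.det * f ^ 5 = (C (C κ⁻¹) * C (C κ)) * (M'.det * f ^ 5) := by
      rw [hκi, one_mul]
    rw [h2]
    linear_combination (C (C κ⁻¹)) * h1

end Vale.Agent.P287.H946
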