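import Vale.Agent.P287.Theta.Family
import Vale.Agent.P287.H946.Cert
import Vale.Agent.P287.H946.Adj3

/-!
Existence of the certificate over `ℂ`, and the comparison of the quadratic conditions with the
linear ones.
-/

namespace Vale.Agent.P287.H946

open Polynomial Module Matrix Vale.Agent.P287.Theta

/-- from the family of local square roots to one global `G` -/
theorem exists_G {f g : ℂ[X][X]} (hf : Prime f) (hfW : WD 6 f)
    (hf6 : ∃ c : ℂ, c ≠ 0 ∧ f.coeff 6 = C c)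
    (hsm : ∀ x y : ℂ, evalEval x y f = 0 →
      f ∉ (Ideal.span {C (X - C x), X - C (C y)} : Ideal ℂ[X][X]) ^ 2)
    {n : ℕ} (hg : WD n g) (hgp : Prime g) (hfg : ¬ f ∣ g)
    (hsq : ∃ s c, ¬ g ∣ c ∧ g ∣ c ^ 2 * f - s ^ 2) :
    ∃ G U V : ℂ[X][X], f ∣ G ^ 2 - g * U ∧ U * V - 1 ∈ Ideal.span {f, g} := by
  classical
  obtain ⟨ι, γ, u, hγ, hu⟩ := exists_family hf hfg hsm
    (fun x y hp => even_norm hgp hsq hp (hsm x y hp))
  obtain ⟨F, S⟩ := Sextic.mk' hf hfW hf6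
  obtain ⟨A, _, _, π, Q⟩ := exists_quot f g
  obtain ⟨hfin, hdim⟩ := Q.finite_and S hg hfg
  have hart : IsArtinianRing A := IsArtinianRing.of_finite ℂ A
  obtain ⟨T, hTfin, e, κ, hunit⟩ := exists_unit_combo (fun k l => π (u k l)) (by
    intro P hP
    obtain ⟨x, y, hxy⟩ := exists_point (π := π) hfin P hP
    obtain ⟨k, hk⟩ := hu x y ((hxy f).mp (by rw [Q.f_eq]; exact P.zero_mem))
    exact ⟨k, fun h1 => hk ((hxy _).mp h1)⟩)
  choose E hE using fun t => Q.surj (e t)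
  set G : ℂ[X][X] := ∑ t, E t * γ (κ t) with hG
  set U : ℂ[X][X] := ∑ t, ∑ t', E t * (E t' * u (κ t') (κ t)) with hU
  have hUu : IsUnit (π U) := by
    have : π U = ∑ t, ∑ t', e t * (e t' * π (u (κ t') (κ t))) := by
      rw [hU, map_sum]
      refine Finset.sum_congr rfl fun t _ => ?_
      rw [map_sum]
      refine Finset.sum_congr rfl fun t' _ => ?_
      rw [map_mul, map_mul, hE, hE]
    rw [this]
    exact hunit
  have hGG : f ∣ G ^ 2 - g * U := by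
    have : G ^ 2 - g * U = ∑ t, ∑ t', E t * E t' * (γ (κ t') * γ (κ t) - g * u (κ t') (κ t)) := by
      rw [pow_two, hG, hU, Finset.sum_mul, Finset.mul_sum, ← Finset.sum_sub_distrib]
      refine Finset.sum_congr rfl fun t _ => ?_
      rw [Finset.mul_sum, Finset.mul_sum, ← Finset.sum_sub_distrib]
      exact Finset.sum_congr rfl fun t' _ => by ring
    rw [this]
    exact Finset.dvd_sum fun t _ => Finset.dvd_sum fun t' _ => (hγ _ _).mul_left _
  obtain ⟨v, hv⟩ := hUu.exists_right_inv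
  obtain ⟨V, rfl⟩ := Q.surj v
  refine ⟨G, U, V, hGG, ?_⟩
  rw [Ideal.span_pair_comm, ← Q.ker, map_sub, map_mul, hv, map_one, sub_self]

/-- a vector on which the rank one form is invertible -/
theorem exists_r {f g : ℂ[X][X]} (hf : Prime f) (hfW : WD 6 f)
    (hf6 : ∃ c : ℂ, c ≠ 0 ∧ f.coeff 6 = C c) {n : ℕ} (hg : WD n g) (hfg : ¬ f ∣ g)
    (N : Matrix (Fin 3) (Fin 3) ℂ[X][X])
    (hN : ∀ x y : ℂ, evalEval x y f = 0 → ∃ i, evalEval x y (N i i) ≠ 0) :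
    ∃ (w : ℂ[X][X]) (r : Fin 3 → ℂ[X][X]), w * (r ⬝ᵥ N *ᵥ r) - 1 ∈ Ideal.span {f, g} := by
  classical
  obtain ⟨F, S⟩ := Sextic.mk' hf hfW hf6
  obtain ⟨A, _, _, π, Q⟩ := exists_quot f g
  obtain ⟨hfin, hdim⟩ := Q.finite_and S hg hfg
  have hart : IsArtinianRing A := IsArtinianRing.of_finite ℂ A
  obtain ⟨T, hTfin, e, κ, hunit⟩ := exists_unit_combo (fun k l => π (N l k)) (by
    intro P hP
    obtain ⟨x, y, hxy⟩ := exists_point (π := π) hfin P hP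
    obtain ⟨k, hk⟩ := hN x y ((hxy f).mp (by rw [Q.f_eq]; exact P.zero_mem))
    exact ⟨k, fun h1 => hk ((hxy _).mp h1)⟩)
  choose E hE using fun t => Q.surj (e t)
  set r : Fin 3 → ℂ[X][X] := fun i => ∑ t, if κ t = i then E t else 0 with hr
  have hrN : r ⬝ᵥ N *ᵥ r = ∑ t, ∑ t', E t * (E t' * N (κ t) (κ t')) := by
    have hd : ∀ b : Fin 3 → ℂ[X][X], r ⬝ᵥ b = ∑ t, E t * b (κ t) := by
      intro b
      rw [dotProduct]
      simp only [hr, Finset.sum_mul, ite_mul, zero_mul]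
      rw [Finset.sum_comm]
      refine Finset.sum_congr rfl fun t _ => ?_
      rw [Finset.sum_ite_eq Finset.univ (κ t) (fun i => E t * b i), if_pos (Finset.mem_univ _)]
    rw [hd]
    refine Finset.sum_congr rfl fun t _ => ?_
    rw [mulVec, dotProduct_comm, hd, Finset.mul_sum]
  have hu : IsUnit (π (r ⬝ᵥ N *ᵥ r)) := by
    have : π (r ⬝ᵥ N *ᵥ r) = ∑ t, ∑ t', e t * (e t' * π (N (κ t) (κ t'))) := by
      rw [hrN, map_sum]
      refine Finset.sum_congr rfl fun t _ => ?_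
      rw [map_sum]
      refine Finset.sum_congr rfl fun t' _ => ?_
      rw [map_mul, map_mul, hE, hE]
    rw [this]
    exact hunit
  obtain ⟨v, hv⟩ := hu.exists_left_inv
  obtain ⟨w, rfl⟩ := Q.surj v
  refine ⟨w, r, ?_⟩
  rw [Ideal.span_pair_comm, ← Q.ker, map_sub, map_mul, hv, map_one, sub_self]

lemma adj_diag_ne_zero {f : ℂ[X][X]}
    (hsm : ∀ x y : ℂ, evalEval x y f = 0 →
      f ∉ (Ideal.span {C (X - C x), X - C (C y)} : Ideal ℂ[X][X]) ^ 2)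
    {A : Matrix (Fin 3) (Fin 3) ℂ[X][X]} (hA : A.IsSymm) {κ : ℂ} (hκ : κ ≠ 0)
    (hdet : A.det = C (C κ) * f) {x y : ℂ} (hp : evalEval x y f = 0) :
    ∃ i, evalEval x y (A.adjugate i i) ≠ 0 := by
  have hp' : evalEval x y A.det = 0 := by
    rw [hdet, evalEval_mul, hp, mul_zero]
  obtain ⟨i, j, hij⟩ := adj_ne_zero A hp' (by
    intro h
    refine hsm x y hp ?_
    have h1 : f = C (C κ⁻¹) * A.det := by
      rw [hdet, ← mul_assoc, ← C_mul, ← C_mul, inv_mul_cancel₀ hκ, C_1, C_1, one_mul]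
    rw [h1]
    exact Ideal.mul_mem_left _ _ h)
  refine ⟨i, fun h0 => hij ?_⟩
  obtain ⟨q, hq⟩ := adj3_minor A i i j j
  have h1 := congrArg (evalEval x y) hq
  rw [evalEval_sub, evalEval_mul, evalEval_mul, evalEval_mul, h0, hp', zero_mul, zero_mul,
    zero_sub, neg_eq_zero, adj_symm hA j i] at h1
  rcases mul_eq_zero.1 h1 with h | h <;> exact h

theorem exists_cert {f g : ℂ[X][X]} (hf : Prime f) (hfW : WD 6 f)
    (hf6 : ∃ c : ℂ, c ≠ 0 ∧ f.coeff 6 = C c)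
    (hsm : ∀ x y : ℂ, evalEval x y f = 0 →
      f ∉ (Ideal.span {C (X - C x), X - C (C y)} : Ideal ℂ[X][X]) ^ 2)
    {n : ℕ} (hg : WD n g) (hgp : Prime g) (hfg : ¬ f ∣ g)
    (hsq : ∃ s c, ¬ g ∣ c ∧ g ∣ c ^ 2 * f - s ^ 2)
    {A : Matrix (Fin 3) (Fin 3) ℂ[X][X]} (hA : A.IsSymm) {κ : ℂ} (hκ : κ ≠ 0)
    (hdet : A.det = C (C κ) * f) :
    ∃ (G U V w : ℂ[X][X]) (r : Fin 3 → ℂ[X][X]), Cert f g A.adjugate G U V w r := by
  obtain ⟨G, U, V, h1, h2⟩ := exists_G hf hfW hf6 hsm hg hgp hfg hsq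
  obtain ⟨w, r, h3⟩ := exists_r hf hfW hf6 hg hfg A.adjugate
    (fun x y hp => adj_diag_ne_zero hsm hA hκ hdet hp)
  refine ⟨G, U, V, w, r, h1, h2, ?_, h3, fun x hx => (hf.dvd_or_dvd hx).resolve_left hfg⟩
  intro i j k l
  exact (show f ∣ A.det from ⟨C (C κ), by rw [hdet, mul_comm]⟩).trans (adj3_minor A i j k l)

section Compare

variable {f g : ℂ[X][X]} {N : Matrix (Fin 3) (Fin 3) ℂ[X][X]} {G U V w : ℂ[X][X]}
  {r : Fin 3 → ℂ[X][X]}

/-- the quadratic condition on `c` is the linear one -/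
theorem sq_mem_iff (h : Cert f g N G U V w r) (hf : Prime f)
    (hsm : ∀ x y : ℂ, evalEval x y f = 0 →
      f ∉ (Ideal.span {C (X - C x), X - C (C y)} : Ideal ℂ[X][X]) ^ 2) (hfg : ¬ f ∣ g)
    (c : ℂ[X][X]) : c ^ 2 ∈ Ideal.span {f, g} ↔ G * c ∈ Ideal.span {f, g} := by
  constructor
  · intro hc
    obtain ⟨b, a, h1⟩ := Ideal.mem_span_pair.1 hc
    obtain ⟨s, hs⟩ := h.sq
    obtain ⟨d, q, hd⟩ := sqrt_dvd f hf hsm (G * c) g (U * a) hfg
      ⟨s * c ^ 2 + g * U * b, by linear_combination c ^ 2 * hs - g * U * h1⟩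
    exact Ideal.mem_span_pair.2 ⟨q, d, by linear_combination -hd⟩
  · intro hc
    rw [pow_two]
    exact h.mul_mem hc hc

/-- the quadratic condition on `a` is the linear one -/
theorem dot_mem_iff (h : Cert f g N G U V w r) (hN : N.IsSymm) (hf : Prime f)
    (hsm : ∀ x y : ℂ, evalEval x y f = 0 →
      f ∉ (Ideal.span {C (X - C x), X - C (C y)} : Ideal ℂ[X][X]) ^ 2) (hfg : ¬ f ∣ g)
    (a : Fin 3 → ℂ[X][X]) :
    a ⬝ᵥ N *ᵥ a ∈ Ideal.span {f, g} ↔ ∀ i, G * (N *ᵥ a) i ∈ Ideal.span {f, g} := by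
  constructor
  · intro ha i
    rw [← sq_mem_iff h hf hsm hfg]
    have h1 := h.sq_entry hN a i
    have h3 : (N *ᵥ a) i ^ 2 = (a ⬝ᵥ N *ᵥ a) * N i i -
        ((a ⬝ᵥ N *ᵥ a) * N i i - (N *ᵥ a) i ^ 2) := by
      rw [sub_sub_cancel]
    rw [h3]
    exact sub_mem (Ideal.mul_mem_right _ _ ha) (dvd_mem h1)
  · intro ha
    exact h.dot_mem hN ha ha

end Compare

end Vale.Agent.P287.H946
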