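import Vale.Agent.P287.EvenN.Mumford
import Vale.Agent.P287.EvenN.Linear
import Vale.Agent.P287.Nod.Spec

/-!
The Mumford block for the module `M' + M R⁴`: no condition on the sextic at the points of the
curve.
-/

namespace Vale.Agent.P287.EvenN

open Polynomial Matrix Module Vale.Agent.P287.Odd Vale.Agent.P287.Nod

section defs

variable {R : Type} [CommRing R]

/-- The module `M' + M R⁴`. -/
def modS (g : R) (M : Matrix (Fin 4) (Fin 4) R) (w : Fin 2 → Fin 4 → R) :
    Submodule R (Fin 4 → R) :=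
  modW g w ⊔ LinearMap.range M.mulVecLin

lemma modW_le_modS (g : R) (M : Matrix (Fin 4) (Fin 4) R) (w : Fin 2 → Fin 4 → R) :
    modW g w ≤ modS g M w := le_sup_left

lemma mulVec_mem_modS (g : R) (M : Matrix (Fin 4) (Fin 4) R) (w : Fin 2 → Fin 4 → R)
    (u : Fin 4 → R) : M *ᵥ u ∈ modS g M w :=
  Submodule.mem_sup_right ⟨u, rfl⟩

lemma smul_g_mem_modW (g : R) (w : Fin 2 → Fin 4 → R) (v : Fin 4 → R) : g • v ∈ modW g w :=
  fun a => by
    rw [dotProduct_smul]
    exact dvd_mul_right _ _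

lemma smul_f_mem_modS {g f : R} {M : Matrix (Fin 4) (Fin 4) R} (hf : M.det = f)
    (w : Fin 2 → Fin 4 → R) (v : Fin 4 → R) : f • v ∈ modS g M w := by
  have h : f • v = M *ᵥ (M.adjugate *ᵥ v) := by
    rw [mulVec_mulVec, mul_adjugate, hf, smul_mulVec, one_mulVec]
  rw [h]
  exact mulVec_mem_modS _ _ _ _

/-- The adjugate form takes values in `(f, g)` on `M' + M R⁴`. -/
lemma dot_mem_modS {g f : R} {M : Matrix (Fin 4) (Fin 4) R} (hM : M.IsSymm) (hf : M.det = f)
    {w : Fin 2 → Fin 4 → R}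
    (h : ∀ m ∈ modW g w, ∀ m' ∈ modW g w, g ∣ m ⬝ᵥ (M.adjugate *ᵥ m')) {v v' : Fin 4 → R}
    (hv : v ∈ modS g M w) (hv' : v' ∈ modS g M w) :
    v ⬝ᵥ (M.adjugate *ᵥ v') ∈ Ideal.span {f, g} := by
  obtain ⟨m, hm, _, ⟨u, rfl⟩, rfl⟩ := Submodule.mem_sup.mp hv
  obtain ⟨m', hm', _, ⟨u', rfl⟩, rfl⟩ := Submodule.mem_sup.mp hv'
  obtain ⟨b, hb⟩ := h m hm m' hm'
  have e1 : M.adjugate *ᵥ (m' + M.mulVecLin u') = M.adjugate *ᵥ m' + f • u' := by
    rw [mulVec_add, mulVecLin_apply, mulVec_mulVec, adjugate_mul, hf, smul_mulVec, one_mulVec]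
  have e2 : (M *ᵥ u) ⬝ᵥ (M.adjugate *ᵥ m') = f * (u ⬝ᵥ m') := by
    have h1 : ∀ x y : Fin 4 → R, (M *ᵥ x) ⬝ᵥ y = x ⬝ᵥ (M *ᵥ y) := fun x y => by
      rw [dotProduct_mulVec, ← mulVec_transpose, hM.eq]
    rw [h1, mulVec_mulVec, mul_adjugate, hf, smul_mulVec, one_mulVec, dotProduct_smul, smul_eq_mul]
  rw [Ideal.mem_span_pair, e1, add_dotProduct, dotProduct_add, dotProduct_add, hb,
    mulVecLin_apply, e2, dotProduct_smul, dotProduct_smul, smul_eq_mul, smul_eq_mul]
  refine ⟨m ⬝ᵥ u' + u ⬝ᵥ m' + (M *ᵥ u) ⬝ᵥ u', b, by ring⟩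

lemma modXS_pair {g f : R} {M : Matrix (Fin 4) (Fin 4) R} (hf : M.det = f)
    {w : Fin 2 → Fin 4 → R} {v v' : Fin 4 → R} (hv : v ∈ modXS f g M w)
    (hv' : v' ∈ modS g M w) : v ⬝ᵥ (M.adjugate *ᵥ v') ∈ Ideal.span {f, g} := by
  obtain ⟨m', hm', _, ⟨u', rfl⟩, rfl⟩ := Submodule.mem_sup.mp hv'
  have e1 : M.adjugate *ᵥ (m' + M.mulVecLin u') = M.adjugate *ᵥ m' + f • u' := by
    rw [mulVec_add, mulVecLin_apply, mulVec_mulVec, adjugate_mul, hf, smul_mulVec, one_mulVec]
  rw [e1, dotProduct_add, dotProduct_smul, smul_eq_mul]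
  refine Ideal.add_mem _ (hv m' hm') (Ideal.mul_mem_right _ _ ?_)
  exact Ideal.subset_span (by simp)

/-- `M' + M R⁴ ≤ X` -/
lemma modS_le_modXS {g f : R} {M : Matrix (Fin 4) (Fin 4) R} (hM : M.IsSymm) (hf : M.det = f)
    {w : Fin 2 → Fin 4 → R}
    (h : ∀ m ∈ modW g w, ∀ m' ∈ modW g w, g ∣ m ⬝ᵥ (M.adjugate *ᵥ m')) :
    modS g M w ≤ modXS f g M w :=
  fun _ hv m hm => dot_mem_modS hM hf h hv (modW_le_modS _ _ _ hm)

end defs

/-- A finite dimensional count: `W` isotropic for `M`, `A` and `V` orthogonal to each other. -/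
theorem finrank_lag {k : Type} [Field k] {Q : Type} [CommRing Q] [Algebra k Q]
    [Module.Finite k Q] {ι ρ : Type} [Fintype ι] [Fintype ρ] [DecidableEq ι] [DecidableEq ρ]
    (lam : Q →ₗ[k] k) (hlam : ∀ u, (∀ r, lam (r * u) = 0) → u = 0)
    {M N : Matrix ι ι Q} (hNM : M * N = 1)
    {W : Matrix ρ ι Q} {Z : Matrix ι ρ Q} (hW : W * Z = 1)
    (hcard : Fintype.card ι = 2 * Fintype.card ρ) (hWM : W * M * Wᵀ = 0)
    (A V : Submodule k (ι → Q)) (hAV : ∀ v ∈ A, ∀ u ∈ V, lam (u ⬝ᵥ v) = 0)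
    (hdim : finrank k (ι → Q) ≤ finrank k A + finrank k V) (L : Submodule k (ι → Q))
    (hA : A ⊓ KI k W ⊤ ≤ L) (hV : ∀ u ∈ V, M *ᵥ u ∈ L) :
    Fintype.card ρ * finrank k Q ≤ finrank k L := by
  have hMN : N * M = 1 := mul_eq_one_comm.mp hNM
  have hU : finrank k (ι → Q) = 2 * (Fintype.card ρ * finrank k Q) := by
    rw [Module.finrank_pi_fintype]
    simp only [Finset.sum_const, Finset.card_univ, smul_eq_mul, hcard]
    ring
  -- the form `lam (u ⬝ v)`
  set β := betG lam (1 : Matrix ι ι Q) with hβ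
  have hβa : ∀ u v, β u v = lam (u ⬝ᵥ v) := fun u v => by
    rw [hβ, betG_apply, PhG, one_mulVec]
  have hnd := betG_nondeg lam hlam (N := (1 : Matrix ι ι Q)) (N' := 1) (one_mul 1)
  have hsym : ∀ u v, β u v = β v u := fun u v => by rw [hβa, hβa, dotProduct_comm]
  -- the range of `Wᵀ`
  set T : (ρ → Q) →ₗ[k] (ι → Q) := (mulVecLin Wᵀ).restrictScalars k with hT
  have hTa : ∀ y, T y = Wᵀ *ᵥ y := fun y => rfl
  have hinj : Function.Injective T := by
    refine (injective_iff_map_eq_zero _).mpr fun y hy => ?_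
    have h1 : Zᵀ *ᵥ T y = y := by
      rw [hTa, mulVec_mulVec, ← transpose_mul, hW, transpose_one, one_mulVec]
    rw [← h1, hy, mulVec_zero]
  have hTr : finrank k (LinearMap.range T) = Fintype.card ρ * finrank k Q := by
    rw [LinearMap.finrank_range_of_inj hinj, Module.finrank_pi_fintype]
    simp
  -- multiplication by `M`
  set μ : (ι → Q) →ₗ[k] (ι → Q) := (mulVecLin M).restrictScalars k with hμ
  have hμa : ∀ y, μ y = M *ᵥ y := fun y => rfl
  have hμinj : Function.Injective μ := by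
    refine (injective_iff_map_eq_zero _).mpr fun y hy => ?_
    have h1 : N *ᵥ μ y = y := by
      rw [hμa, mulVec_mulVec, hMN, one_mulVec]
    rw [← h1, hy, mulVec_zero]
  -- the kernel of `W` is the image of the range of `Wᵀ`
  have e2 : finrank k (KI k W ⊤) = Fintype.card ρ * finrank k Q := by
    have h4 := finrank_KI (k := k) hW ⊤
    have h5 : finrank k ((⊤ : Ideal Q).restrictScalars k) = finrank k Q := finrank_top k Q
    rw [h5, hcard] at h4
    nlinarith
  have hker : (LinearMap.range T).map μ = KI k W ⊤ := by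
    refine Submodule.eq_of_le_of_finrank_eq ?_ ?_
    · rintro _ ⟨_, ⟨y, rfl⟩, rfl⟩
      refine ⟨?_, fun i => trivial⟩
      rw [hμa, hTa, mulVec_mulVec, mulVec_mulVec, hWM, zero_mulVec]
    · rw [e2, ← hTr]
      exact ((LinearMap.range T).equivMapOfInjective _ hμinj).finrank_eq.symm
  -- the orthogonal of `V + range Wᵀ`
  have h1 := finrank_orth β hnd (V ⊔ LinearMap.range T)
    { carrier := {x | ∀ y ∈ V ⊔ LinearMap.range T, β x y = 0}
      add_mem' := fun {a b} ha hb y hy => by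
        rw [map_add, LinearMap.add_apply, ha y hy, hb y hy, add_zero]
      zero_mem' := fun y _ => by rw [map_zero, LinearMap.zero_apply]
      smul_mem' := fun c a ha y hy => by
        rw [map_smul, LinearMap.smul_apply, ha y hy, smul_zero] } (fun x => Iff.rfl)
  set S : Submodule k (ι → Q) :=
    { carrier := {x | ∀ y ∈ V ⊔ LinearMap.range T, β x y = 0}
      add_mem' := fun {a b} ha hb y hy => by
        rw [map_add, LinearMap.add_apply, ha y hy, hb y hy, add_zero]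
      zero_mem' := fun y _ => by rw [map_zero, LinearMap.zero_apply]
      smul_mem' := fun c a ha y hy => by
        rw [map_smul, LinearMap.smul_apply, ha y hy, smul_zero] } with hS
  -- the orthogonal of `V`
  have hVA : ∀ x, (∀ y ∈ V, β x y = 0) → x ∈ A := by
    set S' : Submodule k (ι → Q) :=
      { carrier := {x | ∀ y ∈ V, β x y = 0}
        add_mem' := fun {a b} ha hb y hy => by
          rw [map_add, LinearMap.add_apply, ha y hy, hb y hy, add_zero]
        zero_mem' := fun y _ => by rw [map_zero, LinearMap.zero_apply]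
        smul_mem' := fun c a ha y hy => by
          rw [map_smul, LinearMap.smul_apply, ha y hy, smul_zero] } with hS'
    have h2 := finrank_orth β hnd V S' (fun x => Iff.rfl)
    have h3 : A ≤ S' := fun x hx y hy => by
      rw [hsym, hβa]
      exact hAV x hx y hy
    have h4 : A = S' := by
      refine Submodule.eq_of_le_of_finrank_le h3 ?_
      omega
    intro x hx
    rw [h4]
    exact hx
  have hSA : S ≤ A ⊓ KI k W ⊤ := by
    intro x hx
    have hx' : ∀ y ∈ V ⊔ LinearMap.range T, β x y = 0 := hx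
    refine ⟨hVA x fun y hy => hx' y (Submodule.mem_sup_left hy), ?_, fun i => trivial⟩
    funext a
    refine hlam _ fun r => ?_
    have h2 := hx' (T (Pi.single a r)) (Submodule.mem_sup_right ⟨_, rfl⟩)
    rw [hβa, hTa, dotProduct_mulVec, ← mulVec_transpose, transpose_transpose,
      dotProduct_single] at h2
    rw [mul_comm]
    exact h2
  have h2 := Submodule.finrank_sup_add_finrank_inf_eq V (LinearMap.range T)
  have h3 := Submodule.finrank_mono hSA
  -- the sum
  have h4 := Submodule.finrank_sup_add_finrank_inf_eq (A ⊓ KI k W ⊤) (V.map μ)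
  have h5 : finrank k (V.map μ) = finrank k V :=
    (V.equivMapOfInjective _ hμinj).finrank_eq.symm
  have h6 : (A ⊓ KI k W ⊤ ⊓ V.map μ : Submodule k (ι → Q)) ≤ (V ⊓ LinearMap.range T).map μ := by
    rintro _ ⟨⟨_, h7⟩, u, hu, rfl⟩
    rw [SetLike.mem_coe, ← hker] at h7
    obtain ⟨u', hu', h8⟩ := h7
    have h9 := hμinj h8
    rw [h9] at hu'
    exact ⟨u, ⟨hu, hu'⟩, rfl⟩
  have h7 := Submodule.finrank_mono h6
  have h8 : finrank k ((V ⊓ LinearMap.range T).map μ) =
      finrank k (V ⊓ LinearMap.range T : Submodule k (ι → Q)) :=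
    ((V ⊓ LinearMap.range T).equivMapOfInjective _ hμinj).finrank_eq.symm
  have h9 : (A ⊓ KI k W ⊤ ⊔ V.map μ : Submodule k (ι → Q)) ≤ L := by
    refine sup_le hA ?_
    rintro _ ⟨u, hu, rfl⟩
    exact hV u hu
  have h10 := Submodule.finrank_mono h9
  rw [hTr] at h2
  omega

section

variable {k : Type} [Field k]

lemma modS_sat {n : ℕ} {g f : k[X][X]} {M : Matrix (Fin 4) (Fin 4) k[X][X]}
    {w : Fin 2 → Fin 4 → k[X][X]} (hC : CurveN n g f) (hf : M.det = f) (e : ℕ)
    (v : Fin 4 → k[X][X]) (h : (C X : k[X][X]) ^ e • v ∈ modS g M w) : v ∈ modS g M w := by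
  obtain ⟨α, β, γ, h1⟩ := hC.line
  induction e with
  | zero => rwa [pow_zero, one_smul] at h
  | succ e ih =>
    apply ih
    have h2 : (C X : k[X][X]) ^ e • v = α • (f • ((C X : k[X][X]) ^ e • v)) +
        β • (g • ((C X : k[X][X]) ^ e • v)) + γ • ((C X : k[X][X]) ^ (e + 1) • v) := by
      funext i
      simp only [Pi.add_apply, Pi.smul_apply, smul_eq_mul]
      rw [pow_succ]
      linear_combination (-((C X : k[X][X]) ^ e * v i)) * h1
    rw [h2]
    exact Submodule.add_mem _ (Submodule.add_mem _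
      (Submodule.smul_mem _ _ (smul_f_mem_modS hf w _))
      (Submodule.smul_mem _ _ (modW_le_modS _ _ _ (smul_g_mem_modW g w _))))
      (Submodule.smul_mem _ _ h)

lemma mulp_memS {n d : ℕ} {g f : k[X][X]} {M : Matrix (Fin 4) (Fin 4) k[X][X]}
    {w : Fin 2 → Fin 4 → k[X][X]} (hC : CurveN n g f) (hf : M.det = f) (e : ℕ)
    (v : Fin 4 → k[X][X]) :
    mulp k e v ∈ Yd4 n (d + e) (modS g M w) ↔ v ∈ Yd4 n d (modS g M w) := by
  rw [mem_Yd4, mem_Yd4]
  have h1 : mulp k e v ∈ modS g M w ↔ v ∈ modS g M w := by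
    constructor
    · intro h3
      rw [mulp_eq] at h3
      exact modS_sat hC hf e v h3
    · intro h2
      rw [mulp_eq]
      exact Submodule.smul_mem _ _ h2
  rw [h1]
  refine and_congr_right fun _ => forall_congr' fun i => ?_
  have h2 : d + e + wt0 i = d + wt0 i + e := by omega
  rw [h2]
  exact mem_En_pow_mul

/-- Some minor is not divisible by `g`. -/
lemma exists_minor {n : ℕ} {g : k[X][X]} (hg : g.Monic) (hn : g.natDegree = n) (h1 : 1 ≤ n)
    {M : Matrix (Fin 4) (Fin 4) k[X][X]} {w : Fin 2 → Fin 4 → k[X][X]} (hW : Plane g M w) :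
    ∃ i j, ¬ g ∣ mnr2 w i j := by
  by_contra hc
  push Not at hc
  have h2 : Ideal.span (Set.range fun ij : Fin 4 × Fin 4 => mnr2 w ij.1 ij.2) ≤
      Ideal.span {g, C X} := by
    rw [Ideal.span_le]
    rintro _ ⟨ij, rfl⟩
    obtain ⟨b, hb⟩ := hc ij.1 ij.2
    rw [SetLike.mem_coe, Ideal.mem_span_pair]
    refine ⟨b, 0, ?_⟩
    change b * g + 0 * C X = mnr2 w ij.1 ij.2
    rw [hb]
    ring
  have h3 := hW.line
  rw [sup_eq_right.mpr h2, Ideal.eq_top_iff_one, Ideal.mem_span_pair] at h3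
  obtain ⟨a, b, hab⟩ := h3
  have h4 := congrArg (mapRingHom (constantCoeff (R := k))) hab
  rw [map_add, map_mul, map_mul, map_one, coe_mapRingHom, map_C, constantCoeff_apply,
    coeff_X_zero, C_0, mul_zero, add_zero] at h4
  have h5 : (g.map (constantCoeff (R := k))).Monic := hg.map _
  have h6 : IsUnit (g.map (constantCoeff (R := k))) := IsUnit.of_mul_eq_one _ (by
    rw [mul_comm]; exact h4)
  have h7 := h5.isUnit_iff.mp h6
  have h8 := hg.natDegree_map (constantCoeff (R := k))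
  rw [h7, natDegree_one] at h8
  omega

/-- The space of the reduced vectors of degree `D j`. -/
noncomputable def box4 (n : ℕ) (D : Fin 4 → ℕ) : Submodule k (Fin 4 → k[X][X]) :=
  Submodule.pi Set.univ fun i => En n (D i)

lemma mem_box4 {n : ℕ} {D : Fin 4 → ℕ} {v : Fin 4 → k[X][X]} :
    v ∈ (box4 n D : Submodule k (Fin 4 → k[X][X])) ↔
      ∀ i, v i ∈ (En n (D i) : Submodule k k[X][X]) := by
  rw [box4, Submodule.mem_pi]
  simp

lemma finrank_map_box4 {Q : Type} [CommRing Q] [Algebra k Q] {π : k[X][X] →ₐ[k] Q} {g : k[X][X]}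
    {N n : ℕ} (hπ : ∀ P, π P = 0 ↔ (C X : k[X][X]) ^ N ∣ P %ₘ g) (hg : g.Monic)
    (hn : g.natDegree = n) {D : Fin 4 → ℕ} (hD : ∀ i, D i < N) :
    finrank k ((box4 n D).map (prL π)) = ∑ i, finrank k (En n (D i) : Submodule k k[X][X]) := by
  have h2 : Function.Injective ((prL π).domRestrict (box4 n D)) := by
    rw [injective_iff_map_eq_zero]
    rintro ⟨v, hv⟩ h0
    refine Subtype.ext (funext fun i => ?_)
    have h1 : π (v i) = 0 := congrFun h0 i
    have h3 := mem_box4.mp hv i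
    rw [hπ, mod_eq_self hg hn h3.2] at h1
    exact eq_zero_of_CX_pow_dvd h3.1 (hD i) h1
  have h3 := (LinearEquiv.ofInjective _ h2).finrank_eq
  rw [LinearMap.range_domRestrict] at h3
  rw [← h3, box4, finrank_pi_sub']

/-- Sum of the dimensions of the two boxes. -/
lemma box_count {r e : ℕ} (hr : 1 ≤ r) (he : r + 2 ≤ e) :
    ∑ i : Fin 4, finrank k (En (2 * r) (r - 1 + e + wt0 i) : Submodule k k[X][X]) +
      ∑ i : Fin 4, finrank k (En (2 * r) (r - 1 + e - 1 - wt0 i) : Submodule k k[X][X]) =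
        4 * (2 * r * (2 * e)) := by
  obtain ⟨r', rfl⟩ : ∃ r', r = r' + 1 := ⟨r - 1, by omega⟩
  obtain ⟨e', rfl⟩ : ∃ e', e = e' + (r' + 3) := ⟨e - (r' + 3), by omega⟩
  have h1 := two_mul_finrank_En (k := k) (n := 2 * (r' + 1)) (d := r' + (e' + (r' + 3)) + 1)
    (by omega)
  have h2 := two_mul_finrank_En (k := k) (n := 2 * (r' + 1)) (d := r' + (e' + (r' + 3)))
    (by omega)
  have h3 := two_mul_finrank_En (k := k) (n := 2 * (r' + 1)) (d := r' + (e' + (r' + 2)))
    (by omega)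
  have h4 := two_mul_finrank_En (k := k) (n := 2 * (r' + 1)) (d := r' + (e' + (r' + 1)))
    (by omega)
  have w0 : wt0 0 = 1 := rfl
  have w1 : wt0 1 = 0 := rfl
  have w2 : wt0 2 = 0 := rfl
  have w3 : wt0 3 = 0 := rfl
  have e1 : r' + 1 - 1 + (e' + (r' + 3)) + 1 = r' + (e' + (r' + 3)) + 1 := by omega
  have e2 : r' + 1 - 1 + (e' + (r' + 3)) + 0 = r' + (e' + (r' + 3)) := by omega
  have e3 : r' + 1 - 1 + (e' + (r' + 3)) - 1 - 0 = r' + (e' + (r' + 2)) := by omega
  have e4 : r' + 1 - 1 + (e' + (r' + 3)) - 1 - 1 = r' + (e' + (r' + 1)) := by omega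
  rw [Fin.sum_univ_four, Fin.sum_univ_four, w0, w1, w2, w3, e1, e2, e3, e4]
  generalize finrank k (En (2 * (r' + 1)) (r' + (e' + (r' + 3)) + 1) :
    Submodule k k[X][X]) = a at *
  generalize finrank k (En (2 * (r' + 1)) (r' + (e' + (r' + 3))) : Submodule k k[X][X]) = b at *
  generalize finrank k (En (2 * (r' + 1)) (r' + (e' + (r' + 2))) : Submodule k k[X][X]) = c at *
  generalize finrank k (En (2 * (r' + 1)) (r' + (e' + (r' + 1))) : Submodule k k[X][X]) = d at *
  nlinarith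

/-- The adjugate form on the linear forms which vanish on the plane. -/
lemma dvd_modW {n : ℕ} (h1 : 1 ≤ n) [CharZero k] {g f : k[X][X]}
    {M : Matrix (Fin 4) (Fin 4) k[X][X]} {w : Fin 2 → Fin 4 → k[X][X]} (hC : CurveN n g f)
    (hM : M.IsSymm) (hMf : M.det = f) (hWp : Plane g M w) :
    ∀ m ∈ modW g w, ∀ m' ∈ modW g w, g ∣ m ⬝ᵥ (M.adjugate *ᵥ m') := by
  obtain ⟨i, j, hij⟩ := exists_minor hC.monic hC.deg h1 hWp
  have hgf : ¬ g ∣ M.det := by
    rw [hMf]
    exact hC.ndvd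
  have hq : ∀ m ∈ modW g w, g ∣ m ⬝ᵥ (M.adjugate *ᵥ m) := fun m hm =>
    dvd_dual hC.prime hgf hWp.iso hij hm
  intro m hm m' hm'
  have h1 := hq (m + m') (Submodule.add_mem _ hm hm')
  have h2 : (m + m') ⬝ᵥ (M.adjugate *ᵥ (m + m')) = m ⬝ᵥ (M.adjugate *ᵥ m) +
      m' ⬝ᵥ (M.adjugate *ᵥ m') + C (C (2 : k)) * (m ⬝ᵥ (M.adjugate *ᵥ m')) := by
    have h3 : m' ⬝ᵥ (M.adjugate *ᵥ m) = m ⬝ᵥ (M.adjugate *ᵥ m') := by
      rw [dotProduct_mulVec, ← mulVec_transpose, hM.adjugate.eq, dotProduct_comm]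
    have h4 : (C (C (2 : k)) : k[X][X]) = 2 := by rw [map_ofNat, map_ofNat]
    rw [mulVec_add, add_dotProduct, dotProduct_add, dotProduct_add, h3, h4]
    ring
  have h3 : g ∣ C (C (2 : k)) * (m ⬝ᵥ (M.adjugate *ᵥ m')) := by
    have h4 : C (C (2 : k)) * (m ⬝ᵥ (M.adjugate *ᵥ m')) =
        (m + m') ⬝ᵥ (M.adjugate *ᵥ (m + m')) - m ⬝ᵥ (M.adjugate *ᵥ m) -
          m' ⬝ᵥ (M.adjugate *ᵥ m') := by
      rw [h2]
      ring
    rw [h4]
    exact dvd_sub (dvd_sub h1 (hq m hm)) (hq m' hm')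
  have h5 : IsUnit (C (C (2 : k)) : k[X][X]) :=
    isUnit_C.mpr (isUnit_C.mpr (isUnit_iff_ne_zero.mpr two_ne_zero))
  exact h5.dvd_mul_left.mp h3

/-- The Mumford block, without any condition at the points `f = g = 0`: the parity, the equality
of the two lattices, and the dimension. -/
theorem coreX (k : Type) [Field k] [CharZero k] (r : ℕ) (hr : 1 ≤ r) (g f : k[X][X])
    (M : Matrix (Fin 4) (Fin 4) k[X][X]) (w : Fin 2 → Fin 4 → k[X][X])
    (hC : CurveN (2 * r) g f) (hM : M.IsSymm) (hwd : ∀ i j, Wd (1 + wt0 i + wt0 j) (M i j))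
    (hMf : M.det = f) (hWp : Plane g M w) :
    ∃ e₀, ∀ e ≥ e₀,
      Even (finrank k (Yd4 (2 * r) (r - 1 + e) (modW g w)) +
        finrank k (Yd4 (2 * r) (r - 1) (modS g M w))) ∧
      (∀ v ∈ Yd4 (2 * r) (r - 1 + e) (modXS f g M w), v ∈ modS g M w) ∧
      finrank k (Yd4 (2 * r) (r - 1 + e) (modS g M w)) = 2 * (2 * r * (2 * e)) := by
  have hg := hC.monic
  have hn := hC.deg
  -- a bound for the degrees
  obtain ⟨D, hD⟩ : ∃ D, ∀ a i, Wd D (w a i) := by
    choose D hD using fun a i => exists_Wd (w a i)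
    refine ⟨∑ a, ∑ i, D a i, fun a i => Wd_mono (hD a i) ?_⟩
    exact (Finset.single_le_sum (f := fun i => D a i) (fun _ _ => Nat.zero_le _)
      (Finset.mem_univ i)).trans (Finset.single_le_sum (f := fun a => ∑ i, D a i)
        (fun _ _ => Nat.zero_le _) (Finset.mem_univ a))
  -- the adjugate form on `M'`
  have hadj := dvd_modW (by omega) hC hM hMf hWp
  refine ⟨r + 4 + D, fun e he => ?_⟩
  set K := r - 1 + e with hK
  obtain ⟨Q, _, _, π, lam, hfin, hdimQ, hπ, hsurj, hlam1, hlam2⟩ :=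
    exists_Q g hC.monic (2 * r) (2 * e) hC.deg (by omega) (by omega)
  -- the inverse of `f`
  obtain ⟨α, β, γ, hline⟩ := hC.line
  obtain ⟨f', hf'⟩ := unit_of_line hπ hg hline
  set M' : Matrix (Fin 4) (Fin 4) Q := M.map (π : k[X][X] →+* Q) with hM'
  have hMs : M'.IsSymm := hM.map _
  have hdet : M'.det = π f := by
    rw [hM', map_detG, hMf]
    rfl
  set N : Matrix (Fin 4) (Fin 4) Q := f' • M'.adjugate with hN
  have hMN : M' * N = 1 := by
    rw [hN, Matrix.mul_smul, mul_adjugate, hdet, smul_smul, mul_comm, hf', one_smul]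
  have hNs : N.IsSymm := by
    have h1 : M'.adjugate.IsSymm := hMs.adjugate
    rw [hN, Matrix.IsSymm, transpose_smul, h1.eq]
  -- the plane
  set W : Matrix (Fin 2) (Fin 4) Q := Matrix.of fun a i => π (w a i) with hWd
  obtain ⟨Z, hZ⟩ : ∃ Z : Matrix (Fin 4) (Fin 2) Q, W * Z = 1 := by
    apply exists_right_inv (fun a i => π (w a i))
    obtain ⟨y, hy, t, ht, hyt⟩ := Submodule.mem_sup.mp
      ((Ideal.eq_top_iff_one _).mp hWp.line)
    obtain ⟨a, b, hab⟩ := Ideal.mem_span_pair.mp ht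
    have h1 : IsNilpotent (π (b * C X)) := by
      refine ⟨2 * e, ?_⟩
      rw [← map_pow, mul_pow, mul_comm, pi_pow hπ]
    have h2 : π y = 1 - π (b * C X) := by
      have h3 : y = 1 - b * C X - a * g := by linear_combination hyt + hab
      rw [h3, map_sub, pi_g hπ hg, sub_zero, map_sub, map_one]
    have h3 : IsUnit (π y) := by
      rw [h2]
      exact h1.isUnit_one_sub
    refine Ideal.eq_top_of_isUnit_mem _ ?_ h3
    have h4 := Ideal.mem_map_of_mem (π : k[X][X] →+* Q) hy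
    rw [Ideal.map_span, ← Set.range_comp] at h4
    have h5 : ((π : k[X][X] →+* Q) ∘ fun ij : Fin 4 × Fin 4 => mnr2 w ij.1 ij.2) =
        fun ij : Fin 4 × Fin 4 => π (w 0 ij.1) * π (w 1 ij.2) - π (w 0 ij.2) * π (w 1 ij.1) := by
      funext ij
      change π (mnr2 w ij.1 ij.2) = _
      rw [mnr2, map_sub, map_mul, map_mul]
    rw [h5] at h4
    exact h4
  have hWM : W * M' * Wᵀ = 0 := by
    ext a b
    have h1 := map_dotG (π : k[X][X] →+* Q) (w a) (M *ᵥ w b)
    rw [map_mulvG] at h1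
    have h2 : (W * M' * Wᵀ) a b = π (w a ⬝ᵥ (M *ᵥ w b)) := by
      have h3 : π (w a ⬝ᵥ (M *ᵥ w b)) = (fun i => π (w a i)) ⬝ᵥ (M' *ᵥ fun i => π (w b i)) := h1
      rw [h3, Matrix.mul_assoc, Matrix.mul_apply]
      rfl
    rw [h2, pi_dvd hπ hg (hWp.iso a b)]
    rfl
  have hiso := iso_ker (k := k) hMs hMN hZ (by simp) hWM
  -- the nilpotent
  set P : Q := π ((C X : k[X][X]) ^ e) with hP
  have h0 : (C X : k[X][X]) ^ e ≠ 0 := pow_ne_zero _ (by simp)
  have hP1 : ∀ w : Q, P * w = 0 → ∃ w', w = P * w' := by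
    intro w hw
    obtain ⟨b, rfl⟩ := hsurj w
    rw [hP, ← map_mul, hπ, mod_pow_mul, two_mul, pow_add] at hw
    obtain ⟨b', hb'⟩ := (mul_dvd_mul_iff_left h0).mp hw
    refine ⟨π b', ?_⟩
    rw [hP, ← map_mul, ← hb', pi_mod hπ hg]
  have hPP : P * P = 0 := by
    rw [hP, ← map_mul, ← pow_add, ← two_mul]
    have := pi_pow hπ 1
    rwa [mul_one] at this
  -- the third Lagrangian
  have hd : K + 1 < 2 * e := by omega
  set L : Submodule k (Fin 4 → Q) := (Yd4 (2 * r) K (modS g M w)).map (prL π) with hL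
  have h3X : ∀ v ∈ Yd4 (2 * r) K (modXS f g M w), ∀ v' ∈ Yd4 (2 * r) K (modS g M w),
      lam (PhG N (prL π v) (prL π v')) = 0 := by
    intro v hv v' hv'
    have h1 : PhG N (prL π v) (prL π v') = f' * π (v ⬝ᵥ (M.adjugate *ᵥ v')) := by
      have h2 := map_dotG (π : k[X][X] →+* Q) v (M.adjugate *ᵥ v')
      rw [map_mulvG, ← map_adjG] at h2
      have h3 : π (v ⬝ᵥ (M.adjugate *ᵥ v')) = (prL π v) ⬝ᵥ (M'.adjugate *ᵥ (prL π v')) := h2
      rw [h3, PhG, hN, smul_mulVec, dotProduct_smul, smul_eq_mul]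
    obtain ⟨a, b, hab⟩ := Ideal.mem_span_pair.mp (modXS_pair hMf (mem_Yd4.mp hv).1
      (mem_Yd4.mp hv').1)
    have hwd' : Wd (2 * K + 5) (v ⬝ᵥ (M.adjugate *ᵥ v')) := by
      refine Wd_dotG fun i => ?_
      have h1 := wt0_le i
      refine Wd_mul_le (Yd4_wd hv i) (e := K + 5 - wt0 i) ?_ (by omega)
      change Wd _ (∑ j, M.adjugate i j * v' j)
      refine Wd_sum _ _ fun j _ => ?_
      have h2 := wt0_le j
      exact Wd_mul_le (Wd_adj4 hwd i j) (Yd4_wd hv' j) (by omega)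
    have h2 : Wd (2 * K - 1) (a %ₘ g) := by
      refine hC.inf.2 (2 * K - 1) (a %ₘ g) (fun j hj => coeff_mod hg hn hj) ?_
      have h3 : (f * (a %ₘ g)) %ₘ g = (v ⬝ᵥ (M.adjugate *ᵥ v')) %ₘ g := by
        rw [← sub_eq_zero, ← sub_modByMonic, modByMonic_eq_zero_iff_dvd hg]
        refine ⟨-(f * (a /ₘ g)) - b, ?_⟩
        have h4 := modByMonic_add_div a g
        linear_combination hab + f * h4
      rw [h3]
      exact Wd_mono (Wd_mod hg hn hC.wd hwd') (by omega)
    have h5 : PhG N (prL π v) (prL π v') = π (a %ₘ g) := by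
      rw [h1, ← hab, map_add, pi_g hπ hg, add_zero, map_mul, pi_mod hπ hg]
      linear_combination (π a) * hf'
    rw [h5, hlam1, mod_eq_self hg hn (fun j hj => coeff_mod hg hn hj)]
    exact h2 _ _ (by omega)
  have hSX := modS_le_modXS hM hMf hadj
  have h33 : ∀ v ∈ L, ∀ w ∈ L, lam (PhG N v w) = 0 := by
    rintro _ ⟨v, hv, rfl⟩ _ ⟨v', hv', rfl⟩
    exact h3X v (mem_Yd4.mpr ⟨hSX (mem_Yd4.mp hv).1, (mem_Yd4.mp hv).2⟩) v' hv'
  have hWv : ∀ v : Fin 4 → k[X][X], W *ᵥ (prL π v) = 0 ↔ ∀ a, π (w a ⬝ᵥ v) = 0 := by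
    intro v
    rw [funext_iff]
    refine forall_congr' fun a => ?_
    have h2 := map_dotG (π : k[X][X] →+* Q) (w a) v
    have h3 : π (w a ⬝ᵥ v) = (W *ᵥ (prL π v)) a := h2
    rw [h3]
    rfl
  have hdim : Fintype.card (Fin 2) * finrank k Q ≤ finrank k L := by
    refine finrank_lag lam hlam2 hMN hZ (by simp) hWM
      ((box4 (2 * r) fun i => K + wt0 i).map (prL π))
      ((box4 (2 * r) fun i => K - 1 - wt0 i).map (prL π)) ?_ ?_ L ?_ ?_
    · rintro _ ⟨v, hv, rfl⟩ _ ⟨u, hu, rfl⟩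
      have h1 : (prL π u) ⬝ᵥ (prL π v) = π (u ⬝ᵥ v) :=
        (map_dotG (π : k[X][X] →+* Q) u v).symm
      have h2 : Wd (2 * K - 1) (u ⬝ᵥ v) := by
        refine Wd_dotG fun i => ?_
        have h3 := wt0_le i
        exact Wd_mul_le (mem_box4.mp hu i).1 (mem_box4.mp hv i).1 (by omega)
      rw [h1, hlam1]
      exact Wd_mod hg hn hC.wd h2 _ _ (by omega)
    · rw [finrank_map_box4 hπ hg hn (fun i => by have := wt0_le i; omega),
        finrank_map_box4 hπ hg hn (fun i => by have := wt0_le i; omega),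
        Module.finrank_pi_fintype]
      simp only [Finset.sum_const, Finset.card_univ, smul_eq_mul, Fintype.card_fin, hdimQ]
      rw [box_count hr (by omega)]
    · rintro _ ⟨⟨v, hv, rfl⟩, h1⟩
      refine ⟨v, ?_, rfl⟩
      have h3 := (hWv v).mp h1.1
      have h4 := mem_box4.mp hv
      rw [SetLike.mem_coe, mem_Yd4]
      refine ⟨modW_le_modS _ _ _ fun a => ?_, h4⟩
      exact pi_inj hπ hg hn hC.wd (d := D + (K + 1)) (by omega)
        (Wd_dotG fun i => Wd_mul (hD a i) (Wd_mono (h4 i).1 (by have := wt0_le i; omega))) (h3 a)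
    · rintro _ ⟨u, hu, rfl⟩
      refine ⟨fun i => (M *ᵥ u) i %ₘ g, ?_, ?_⟩
      · rw [SetLike.mem_coe, mem_Yd4]
        constructor
        · have h1 : (fun i => (M *ᵥ u) i %ₘ g) = M *ᵥ u + g • fun i => -((M *ᵥ u) i /ₘ g) := by
            funext i
            have h2 := modByMonic_add_div ((M *ᵥ u) i) g
            simp only [Pi.add_apply, Pi.smul_apply, smul_eq_mul]
            linear_combination h2
          rw [h1]
          exact Submodule.add_mem _ (mulVec_mem_modS _ _ _ _)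
            (modW_le_modS _ _ _ (smul_g_mem_modW g w _))
        · intro i
          refine mod_mem_En hg hn hC.wd ?_
          change Wd _ (∑ j, M i j * u j)
          refine Wd_sum _ _ fun j _ => ?_
          have h2 := wt0_le j
          exact Wd_mul_le (hwd i j) (mem_box4.mp hu j).1 (by omega)
      · funext i
        change π ((M *ᵥ u) i %ₘ g) = _
        rw [pi_mod hπ hg]
        exact congrFun (map_mulvG (π : k[X][X] →+* Q) M u) i
  obtain ⟨hfin3, hpar⟩ := parityG (k := k) two_ne_zero lam hlam2 hNs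
    (mul_eq_one_comm.mp hMN) hZ (by simp) hiso hP1 hPP L h33 hdim
  have hL3 : finrank k L = finrank k (Yd4 (2 * r) K (modS g M w)) :=
    finrank_map_prL4 hπ hg hn hd (Y := modS g M w) le_rfl
  refine ⟨?_, ?_, ?_⟩
  rotate_left
  · intro v hv
    set T : Submodule k (Fin 4 → Q) :=
      { carrier := {x | ∀ y ∈ L, betG lam N x y = 0}
        add_mem' := fun {a b} ha hb y hy => by
          rw [map_add, LinearMap.add_apply, ha y hy, hb y hy, add_zero]
        zero_mem' := fun y _ => by rw [map_zero, LinearMap.zero_apply]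
        smul_mem' := fun c a ha y hy => by
          rw [map_smul, LinearMap.smul_apply, ha y hy, smul_zero] } with hT
    have h1 := finrank_orth (betG lam N) (betG_nondeg lam hlam2 (mul_eq_one_comm.mp hMN)) L T
      (fun x => Iff.rfl)
    have h2 : L ≤ T := fun x hx y hy => h33 x hx y hy
    have h3 : finrank k (Fin 4 → Q) = 4 * finrank k Q := by
      rw [Module.finrank_pi_fintype]
      simp
    have h4 : L = T := by
      refine Submodule.eq_of_le_of_finrank_le h2 ?_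
      rw [Fintype.card_fin] at hfin3
      omega
    have h5 : prL π v ∈ L := by
      rw [h4]
      rintro _ ⟨v', hv', rfl⟩
      exact h3X v hv v' hv'
    obtain ⟨v', hv', hvv⟩ := h5
    have h6 : v - v' ∈ Yd4 (2 * r) K (⊤ : Submodule k[X][X] (Fin 4 → k[X][X])) := by
      refine mem_Yd4.mpr ⟨trivial, fun i => ?_⟩
      exact Submodule.sub_mem _ ((mem_Yd4.mp hv).2 i) ((mem_Yd4.mp hv').2 i)
    have h7 := prL_inj4 hπ hg hn hd h6 (by rw [map_sub, hvv, sub_self])
    rw [sub_eq_zero] at h7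
    rw [h7]
    exact (mem_Yd4.mp hv').1
  · rw [← hL3, hfin3, Fintype.card_fin, hdimQ]
  -- the intersection with the second Lagrangian
  have hI2 : (KI k W ⊤ ⊓ L : Submodule k (Fin 4 → Q)) =
      (Yd4 (2 * r) K (modW g w)).map (prL π) := by
    ext y
    constructor
    · rintro ⟨h1, v, hv, rfl⟩
      refine ⟨v, ?_, rfl⟩
      have h3 := (hWv v).mp h1.1
      have w1 := Yd4_wd' hv
      rw [SetLike.mem_coe, mem_Yd4] at hv ⊢
      refine ⟨fun a => ?_, hv.2⟩
      exact pi_inj hπ hg hn hC.wd (d := D + (K + 1)) (by omega)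
        (Wd_dotG fun i => Wd_mul (hD a i) (w1 i)) (h3 a)
    · rintro ⟨v, hv, rfl⟩
      rw [SetLike.mem_coe, mem_Yd4] at hv
      obtain ⟨hv2, hv4⟩ := hv
      exact ⟨⟨(hWv v).mpr fun a => pi_dvd hπ hg (hv2 a), fun i => trivial⟩, v,
        mem_Yd4.mpr ⟨modW_le_modS _ _ _ hv2, hv4⟩, rfl⟩
  -- the intersection with the first Lagrangian
  have hI1 : (L1G k (Fin 4) P ⊓ L : Submodule k (Fin 4 → Q)) =
      ((Yd4 (2 * r) (r - 1) (modS g M w)).map (mulp k e)).map (prL π) := by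
    ext y
    rw [Submodule.mem_inf, mem_L1G]
    constructor
    · rintro ⟨h1, v, hv, rfl⟩
      have h2 : ∀ i, ∃ v', v i = (C X : k[X][X]) ^ e * v' := by
        intro i
        have h3 : π ((C X : k[X][X]) ^ e * v i) = 0 := by
          rw [map_mul]
          exact h1 i
        rw [hπ, mod_pow_mul, mod_eq_self hg hn ((mem_Yd4.mp hv).2 i).2, two_mul, pow_add] at h3
        obtain ⟨b', hb'⟩ := (mul_dvd_mul_iff_left h0).mp h3
        exact ⟨b', hb'⟩
      choose v' hv' using h2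
      have h3 : v = mulp k e v' := funext hv'
      refine ⟨v, ⟨v', ?_, h3.symm⟩, rfl⟩
      rw [h3] at hv
      exact (mulp_memS hC hMf e v').mp hv
    · rintro ⟨_, ⟨v', hv', rfl⟩, rfl⟩
      refine ⟨fun i => ?_, mulp k e v', (mulp_memS hC hMf e v').mpr hv', rfl⟩
      change P * π ((C X : k[X][X]) ^ e * v' i) = 0
      rw [map_mul, ← mul_assoc, ← hP, hPP, zero_mul]
  rw [hI2, hI1, finrank_map_prL4 hπ hg hn hd (Y := modW g w) le_rfl,
    finrank_map_prL4 hπ hg hn hd (Y := modS g M w)] at hpar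
  · have h1 : finrank k ((Yd4 (2 * r) (r - 1) (modS g M w)).map (mulp k e)) =
        finrank k (Yd4 (2 * r) (r - 1) (modS g M w)) :=
      ((Yd4 (2 * r) (r - 1) (modS g M w)).equivMapOfInjective _ (mulp_inj e)).finrank_eq.symm
    rw [h1, Fintype.card_fin] at hpar
    obtain ⟨c, hc⟩ := hpar
    refine ⟨c - finrank k ((annI P).restrictScalars k), ?_⟩
    omega
  · rintro _ ⟨v', hv', rfl⟩
    exact (mulp_memS hC hMf e v').mpr hv'

/-- [ME'] The Mumford block, without any condition at the points `f = g = 0`. -/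
theorem mumX (k : Type) [Field k] [CharZero k] (r : ℕ) (hr : 1 ≤ r) (g f : k[X][X])
    (M : Matrix (Fin 4) (Fin 4) k[X][X]) (w : Fin 2 → Fin 4 → k[X][X])
    (hC : CurveN (2 * r) g f) (hM : M.IsSymm) (hwd : ∀ i j, Wd (1 + wt0 i + wt0 j) (M i j))
    (hMf : M.det = f) (hWp : Plane g M w) :
    ∃ e₀, ∀ e ≥ e₀,
      Even (finrank k (Yd4 (2 * r) (r - 1 + e) (modW g w)) +
        finrank k (Yd4 (2 * r) (r - 1) (modS g M w))) := by
  obtain ⟨e₀, he₀⟩ := coreX k r hr g f M w hC hM hwd hMf hWp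
  exact ⟨e₀, fun e he => (he₀ e he).1⟩

end

end Vale.Agent.P287.EvenN
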