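import Vale.Agent.P287.Odd.Spec
import Vale.Agent.P287.H946.Cert
import Vale.Agent.P287.H946.Adj3

/-!
The form `c c' + aᵀ adj(A) a'` takes values in `(f,g)` on `X`.
-/

namespace Vale.Agent.P287.H946

open Polynomial Module Matrix Vale.Agent.P287.Odd

section

variable {R : Type} [CommRing R]

/-- the rank one argument, over any commutative ring -/
lemma dot_mem_of {f g : R} {A : Matrix (Fin 3) (Fin 3) R} (hA : A.IsSymm) (hdet : A.det = -f)
    (hrank : Ideal.span (Set.range fun ij : Fin 3 × Fin 3 => A.adjugate ij.1 ij.2) ⊔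
      Ideal.span {f, g} = ⊤) {J : Ideal R} (hJ : ∀ a ∈ J, ∀ b ∈ J, a * b ∈ Ideal.span {f, g})
    {a b : Fin 3 → R} (ha : ∀ i, (A.adjugate *ᵥ a) i ∈ J) (hb : ∀ i, (A.adjugate *ᵥ b) i ∈ J) :
    a ⬝ᵥ A.adjugate *ᵥ b ∈ Ideal.span {f, g} := by
  set N := A.adjugate with hN
  have hNs : N.IsSymm := by
    have h := Matrix.adjugate_transpose A
    rw [hA.eq] at h
    exact h
  have hm : ∀ i j k l, f ∣ N i j * N k l - N i l * N k j := by
    intro i j k l
    obtain ⟨q, hq⟩ := adj3_minor A i j k l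
    exact ⟨-q, by rw [hN, hq, hdet]; ring⟩
  set y := a ⬝ᵥ N *ᵥ b with hy
  have h1 : ∀ i j, y * N i j ∈ Ideal.span {f, g} := by
    intro i j
    have h2 := minor_dot hm a b (Pi.single i 1) (Pi.single j 1)
    have h3 : a ⬝ᵥ N *ᵥ (Pi.single j 1 : Fin 3 → R) = (N *ᵥ a) j := by
      rw [dotProduct_mulVec, ← mulVec_transpose, hNs.eq, dotProduct_single_one]
    have h4 : (N *ᵥ (Pi.single j 1 : Fin 3 → R)) i = N i j := by
      rw [mulVec_single_one, col_apply]
    rw [single_dot, single_dot, h3, h4] at h2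
    have h5 : y * N i j = (y * N i j - (N *ᵥ a) j * (N *ᵥ b) i) + (N *ᵥ a) j * (N *ᵥ b) i := by
      rw [sub_add_cancel]
    rw [h5]
    exact add_mem (dvd_mem h2) (hJ _ (ha j) _ (hb i))
  have h2 : (⊤ : Ideal R) ≤ (Ideal.span {f, g}).colon {y} := by
    rw [← hrank]
    refine sup_le ?_ ?_
    · rw [Ideal.span_le]
      rintro _ ⟨ij, rfl⟩
      rw [SetLike.mem_coe, Submodule.mem_colon_singleton, smul_eq_mul, mul_comm]
      exact h1 ij.1 ij.2
    · intro z hz
      rw [Submodule.mem_colon_singleton, smul_eq_mul]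
      exact Ideal.mul_mem_right _ _ hz
  have h3 := h2 (show (1 : R) ∈ ⊤ from trivial)
  rw [Submodule.mem_colon_singleton, one_smul] at h3
  exact h3

end

variable {k : Type} [Field k] {m : ℕ} {g f : k[X][X]} {J : Ideal k[X][X]}
  {A : Matrix (Fin 3) (Fin 3) k[X][X]}

/-- the form takes values in `(f,g)` on `X` -/
theorem phi_mem (hJ : Half m g f J) (hA : Quadrics g f A) {v w : Fin 4 → k[X][X]}
    (hv : v ∈ modX A J) (hw : w ∈ modX A J) :
    v 0 * w 0 + av v ⬝ᵥ A.adjugate *ᵥ av w ∈ Ideal.span {f, g} :=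
  add_mem (hJ.mul_mem _ hv.1 _ hw.1) (dot_mem_of hA.symm hA.det hA.rank hJ.mul_mem hv.2 hw.2)

end Vale.Agent.P287.H946
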