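import Vale.Agent.P287.H946.MumX

/-!
The block [A]: the lattice `X` is `M' + M R⁴`; parity, integrality and codimension.
-/

namespace Vale.Agent.P287.H946

open Polynomial Matrix Module Vale.Agent.P287.Odd Vale.Agent.P287.EvenN Vale.Agent.P287.Nod

section

variable {k : Type} [Field k]

/-- The two lattices are equal. -/
theorem modXS_eq [CharZero k] {r : ℕ} (hr : 1 ≤ r) {g f : k[X][X]}
    {M : Matrix (Fin 4) (Fin 4) k[X][X]} {w : Fin 2 → Fin 4 → k[X][X]}
    (hC : CurveN (2 * r) g f) (hQ : Quad0 f M) (hW : Plane g M w) :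
    modXS f g M w = modS g M w := by
  obtain ⟨e₀, he₀⟩ := coreX k r hr g f M w hC hQ.symm hQ.wd hQ.det hW
  have hSX := modS_le_modXS hQ.symm hQ.det (dvd_modW (by omega) hC hQ.symm hQ.det hW)
  refine le_antisymm (fun v hv => ?_) hSX
  have hgS : ∀ y : Fin 4 → k[X][X], g • y ∈ modS g M w := fun y =>
    modW_le_modS _ _ _ (smul_g_mem_modW g w y)
  have h1 : (fun i => v i %ₘ g) = v + g • fun i => -(v i /ₘ g) := by
    funext i
    have h2 := modByMonic_add_div (v i) g
    simp only [Pi.add_apply, Pi.smul_apply, smul_eq_mul]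
    linear_combination h2
  have h2 : (fun i => v i %ₘ g) ∈ modXS f g M w := by
    rw [h1]
    exact Submodule.add_mem _ hv (hSX (hgS _))
  choose D hD using fun i => exists_Wd (v i %ₘ g)
  have h3 : (fun i => v i %ₘ g) ∈ Yd4 (2 * r) (r - 1 + (e₀ + ∑ i, D i)) (modXS f g M w) := by
    refine mem_Yd4.mpr ⟨h2, fun i => ⟨Wd_mono (hD i) ?_, fun j hj => coeff_mod hC.monic hC.deg hj⟩⟩
    have h4 := Finset.single_le_sum (f := D) (fun _ _ => Nat.zero_le _) (Finset.mem_univ i)
    omega
  have h4 := (he₀ (e₀ + ∑ i, D i) (by omega)).2.1 _ h3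
  have h5 : v = (fun i => v i %ₘ g) + g • fun i => (v i /ₘ g) := by
    funext i
    have h2 := modByMonic_add_div (v i) g
    simp only [Pi.add_apply, Pi.smul_apply, smul_eq_mul]
    linear_combination -h2
  rw [h5]
  exact Submodule.add_mem _ h4 (hgS _)

instance finite_box4 (n : ℕ) (D : Fin 4 → ℕ) :
    Module.Finite k (box4 n D : Submodule k (Fin 4 → k[X][X])) := by
  rw [box4]
  infer_instance

lemma finrank_box4 (n d : ℕ) :
    finrank k (box4 n (fun i => d + wt0 i) : Submodule k (Fin 4 → k[X][X])) =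
      finrank k (En n (d + 1) : Submodule k k[X][X]) +
        3 * finrank k (En n d : Submodule k k[X][X]) := by
  have w0 : wt0 0 = 1 := rfl
  have w1 : wt0 1 = 0 := rfl
  have w2 : wt0 2 = 0 := rfl
  have w3 : wt0 3 = 0 := rfl
  rw [box4, finrank_pi_sub', Fin.sum_univ_four, w0, w1, w2, w3, add_zero]
  ring

lemma Yd4_eq (n d : ℕ) (Y : Submodule k[X][X] (Fin 4 → k[X][X])) :
    (Yd4 n d Y : Submodule k (Fin 4 → k[X][X])) =
      box4 n (fun i => d + wt0 i) ⊓ Y.restrictScalars k := by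
  rw [Yd4, box4, inf_comm]

instance finite_Yd4 (n d : ℕ) (Y : Submodule k[X][X] (Fin 4 → k[X][X])) :
    Module.Finite k (Yd4 n d Y : Submodule k (Fin 4 → k[X][X])) := by
  rw [Yd4_eq]
  infer_instance

lemma box4_mono {n d e : ℕ} (h : d ≤ e) :
    (box4 n (fun i => d + wt0 i) : Submodule k (Fin 4 → k[X][X])) ≤
      box4 n (fun i => e + wt0 i) := by
  intro v hv
  rw [mem_box4] at hv ⊢
  exact fun i => ⟨Wd_mono (hv i).1 (by omega), (hv i).2⟩

/-- The codimension grows with the degree. -/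
lemma codim_mono {n d e : ℕ} (h : d ≤ e) (Y : Submodule k[X][X] (Fin 4 → k[X][X])) :
    finrank k (box4 n (fun i => d + wt0 i) : Submodule k (Fin 4 → k[X][X])) +
      finrank k (Yd4 n e Y) ≤
        finrank k (box4 n (fun i => e + wt0 i) : Submodule k (Fin 4 → k[X][X])) +
          finrank k (Yd4 n d Y) := by
  have h1 := Submodule.finrank_sup_add_finrank_inf_eq
    (box4 n (fun i => d + wt0 i) : Submodule k (Fin 4 → k[X][X])) (Yd4 n e Y)
  have h2 : (box4 n (fun i => d + wt0 i) ⊓ Yd4 n e Y : Submodule k (Fin 4 → k[X][X])) =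
      Yd4 n d Y := by
    rw [Yd4_eq, Yd4_eq, ← inf_assoc, inf_eq_left.mpr (box4_mono h)]
  have h3 : (box4 n (fun i => d + wt0 i) ⊔ Yd4 n e Y : Submodule k (Fin 4 → k[X][X])) ≤
      box4 n (fun i => e + wt0 i) := by
    refine sup_le (box4_mono h) ?_
    rw [Yd4_eq]
    exact inf_le_left
  have h4 := Submodule.finrank_mono h3
  rw [h2] at h1
  omega

end

/-- [A] -/
theorem stmtA : StmtA := by
  intro k _ _ r hr g f M w hC hQ hW
  have heq := modXS_eq hr hC hQ hW
  obtain ⟨e₀, he₀⟩ := coreX k r hr g f M w hC hQ.symm hQ.wd hQ.det hW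
  refine ⟨⟨e₀, fun e he => ?_⟩, ?_, fun d => ?_⟩
  · rw [heq]
    exact (he₀ e he).1
  · intro v hv v' hv'
    rw [heq] at hv hv'
    exact dot_mem_modS hQ.symm hQ.det (dvd_modW (by omega) hC hQ.symm hQ.det hW) hv hv'
  · rw [heq]
    set e := e₀ + d + r + 3 with he
    have h1 := (he₀ e (by omega)).2.2
    have h2 := codim_mono (k := k) (n := 2 * r) (show d ≤ r - 1 + e by omega) (modS g M w)
    rw [finrank_box4, finrank_box4, h1] at h2
    have h3 := two_mul_finrank_En (k := k) (n := 2 * r) (d := r - 1 + e + 1) (by omega)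
    have h4 := two_mul_finrank_En (k := k) (n := 2 * r) (d := r - 1 + e) (by omega)
    obtain ⟨r', rfl⟩ : ∃ r', r = r' + 1 := ⟨r - 1, by omega⟩
    rw [Nat.add_sub_cancel] at h2 h3 h4
    generalize finrank k (En (2 * (r' + 1)) (r' + e + 1) : Submodule k k[X][X]) = a at *
    generalize finrank k (En (2 * (r' + 1)) (r' + e) : Submodule k k[X][X]) = b at *
    nlinarith

end Vale.Agent.P287.H946
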