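import Vale.Agent.P287.H270.Nod.StmtC
import Vale.Agent.P287.Nod.SpecF
import Vale.Agent.P287.Nod.Generic

/-!
Two new sections of degree `r - 1`: the binary form attached to them.
-/

namespace Vale.Agent.P287.H946

open Polynomial Matrix Module Vale.Agent.P287 Vale.Agent.P287.Theta Vale.Agent.P287.EvenN
open Vale.Agent.P287.Nod

variable {M : Matrix (Fin 4) (Fin 4) R3} {g : R3} {r : ℕ}

/-- The matrix of the cubics. -/
theorem exists_cubics (hM : FibShape M) (hr : 1 ≤ r) (hg : g.IsHomogeneous (2 * r))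
    (hgi : Irreducible g) (hgf : ¬ g ∣ M.det) (v : Fin 2 → Fin 4 → R3)
    (hv : ∀ i j, (v i j).IsHomogeneous (r - 1 + wt0 j))
    (hpair : ∀ i j, v i ⬝ᵥ (M.adjugate *ᵥ v j) ∈ Ideal.span {M.det, g}) :
    ∃ A : Matrix (Fin 2) (Fin 2) R3, A.IsSymm ∧ (∀ i j, (A i j).IsHomogeneous 3) ∧
      (∀ i j, M.det ∣ v i ⬝ᵥ (M.adjugate *ᵥ v j) - g * A i j) ∧
      M.det ∣ A 0 0 * A 1 1 - A 0 1 * A 1 0 := by
  have h1 : ∀ i j, ∃ a : R3, a.IsHomogeneous 3 ∧
      M.det ∣ v i ⬝ᵥ (M.adjugate *ᵥ v j) - g * a := by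
    intro i j
    refine exists_homog_coeff (n := 2 * r) (m := 3) ?_ hg hM.det ?_
    · have := H270.hom_pair hM (hv i) (hv j)
      rwa [show r - 1 + (r - 1) + 5 = 2 * r + 3 by omega] at this
    · have := hpair i j
      rwa [Set.pair_comm] at this
  choose A hA3 hA using h1
  refine ⟨Matrix.of A, Matrix.IsSymm.ext fun i j => ?_, hA3, hA, ?_⟩
  · rw [Matrix.of_apply, Matrix.of_apply]
    have hs : v i ⬝ᵥ (M.adjugate *ᵥ v j) = v j ⬝ᵥ (M.adjugate *ᵥ v i) := by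
      rw [H270.pair_eq_sum, H270.pair_eq_sum, Finset.sum_comm]
      refine Finset.sum_congr rfl fun a _ => Finset.sum_congr rfl fun b _ => ?_
      rw [H270.adj_symm' hM.symm b a]
      ring
    have h2 : M.det ∣ g * (A j i - A i j) := by
      have : g * (A j i - A i j) = (v i ⬝ᵥ (M.adjugate *ᵥ v j) - g * A i j) -
          (v j ⬝ᵥ (M.adjugate *ᵥ v i) - g * A j i) := by
        rw [hs]
        ring
      rw [this]
      exact dvd_sub (hA i j) (hA j i)
    have h3 := H270.dvd_of_mul_g hgi hgf h2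
    exact sub_eq_zero.mp (H908.eq_zero_of_dvd_of_lt hM.det ((hA3 j i).sub (hA3 i j)) h3
      (by norm_num))
  · rw [Matrix.of_apply, Matrix.of_apply, Matrix.of_apply, Matrix.of_apply]
    refine H270.dvd_of_mul_g hgi hgf (H270.dvd_of_mul_g hgi hgf ?_)
    have h2 := H270.minor_pair (f := M.det) M.adjugate (fun i j k l => adj_minor M i j k l)
      (v 0) (v 0) (v 1) (v 1)
    obtain ⟨e1, h3⟩ := hA 0 0
    obtain ⟨e2, h4⟩ := hA 1 1
    obtain ⟨e3, h5⟩ := hA 0 1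
    obtain ⟨e4, h6⟩ := hA 1 0
    obtain ⟨e5, h7⟩ := h2
    refine ⟨e5 - e1 * (v 1 ⬝ᵥ (M.adjugate *ᵥ v 1)) - g * A 0 0 * e2 +
      e3 * (v 1 ⬝ᵥ (M.adjugate *ᵥ v 0)) + g * A 0 1 * e4, ?_⟩
    linear_combination h7 - (v 1 ⬝ᵥ (M.adjugate *ᵥ v 1)) * h3 - g * A 0 0 * h4 +
      (v 1 ⬝ᵥ (M.adjugate *ᵥ v 0)) * h5 + g * A 0 1 * h6

/-- A vector which is isotropic for the adjugate modulo a squarefree discriminant. -/
lemma exists_of_pair_dvd (hM : FibShape M) (hsf : Squarefree M.det) (V : Fin 4 → R3)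
    (hV : M.det ∣ V ⬝ᵥ (M.adjugate *ᵥ V)) : ∃ u, V = M *ᵥ u := by
  have hadj : M.adjugate.IsSymm := Matrix.IsSymm.ext fun i j => H270.adj_symm' hM.symm j i
  have h1 : ∀ i, M.det ∣ (M.adjugate *ᵥ V) i := by
    intro i
    have h2 := rank_sq hadj (fun i j k l => adj_minor M i j k l) (Pi.single i 1) V
    have h3 : M.det ∣ (Pi.single i 1 ⬝ᵥ M.adjugate *ᵥ V) ^ 2 := by
      have := dvd_add h2 (hV.mul_left (Pi.single i 1 ⬝ᵥ M.adjugate *ᵥ Pi.single i 1))
      rwa [sub_add_cancel] at this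
    have h4 := (hsf.dvd_pow_iff_dvd two_ne_zero).1 h3
    rwa [single_one_dotProduct] at h4
  choose u hu using h1
  refine ⟨u, ?_⟩
  have h5 : M.det • V = M.det • (M *ᵥ u) := by
    have h6 : M.adjugate *ᵥ V = M.det • u := funext fun i => hu i
    calc M.det • V = M *ᵥ (M.adjugate *ᵥ V) := by
          rw [mulVec_mulVec, mul_adjugate, smul_mulVec, one_mulVec]
      _ = M.det • (M *ᵥ u) := by rw [h6, mulVec_smul]
  funext i
  exact mul_left_cancel₀ hsf.ne_zero (congrFun h5 i)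

/-- The binary form of two independent sections. -/
lemma not_dvd_form (hM : FibShape M) (hsf : Squarefree M.det) (v : Fin 2 → Fin 4 → R3)
    {A : Matrix (Fin 2) (Fin 2) R3}
    (hA : ∀ i j, M.det ∣ v i ⬝ᵥ (M.adjugate *ᵥ v j) - g * A i j)
    (hind : ∀ c : Fin 2 → ℂ, c ≠ 0 → ∀ u : Fin 4 → R3, c 0 • v 0 + c 1 • v 1 ≠ M *ᵥ u)
    (c : Fin 2 → ℂ) (hc : c ≠ 0) :
    MvPolynomial.C (c 0) ^ 2 * A 0 0 + MvPolynomial.C (c 0) * MvPolynomial.C (c 1) * A 0 1 +
      MvPolynomial.C (c 0) * MvPolynomial.C (c 1) * A 1 0 + MvPolynomial.C (c 1) ^ 2 * A 1 1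
        ≠ 0 := by
  intro h0
  obtain ⟨u, hu⟩ := exists_of_pair_dvd hM hsf (c 0 • v 0 + c 1 • v 1) (by
    have e : (c 0 • v 0 + c 1 • v 1) ⬝ᵥ (M.adjugate *ᵥ (c 0 • v 0 + c 1 • v 1)) =
        MvPolynomial.C (c 0) ^ 2 * (v 0 ⬝ᵥ (M.adjugate *ᵥ v 0) - g * A 0 0) +
        MvPolynomial.C (c 0) * MvPolynomial.C (c 1) *
          (v 0 ⬝ᵥ (M.adjugate *ᵥ v 1) - g * A 0 1) +
        MvPolynomial.C (c 0) * MvPolynomial.C (c 1) *
          (v 1 ⬝ᵥ (M.adjugate *ᵥ v 0) - g * A 1 0) +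
        MvPolynomial.C (c 1) ^ 2 * (v 1 ⬝ᵥ (M.adjugate *ᵥ v 1) - g * A 1 1) := by
      rw [mulVec_add, mulVec_smul, mulVec_smul]
      simp only [add_dotProduct, dotProduct_add, smul_dotProduct, dotProduct_smul,
        MvPolynomial.smul_eq_C_mul]
      linear_combination g * h0
    rw [e]
    exact dvd_add (dvd_add (dvd_add ((hA 0 0).mul_left _) ((hA 0 1).mul_left _))
      ((hA 1 0).mul_left _)) ((hA 1 1).mul_left _))
  exact hind c hc u hu

lemma eq_C_of_hom {x : R3} (hx : x.IsHomogeneous 0) : ∃ a : ℂ, x = MvPolynomial.C a :=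
  ⟨_, (MvPolynomial.totalDegree_eq_zero_iff_eq_C).mp (Nat.le_zero.mp hx.totalDegree_le)⟩

/-- **Block [F2].** -/
theorem stmtF2 : StmtF2 := by
  intro M g r w hS hB hsf v hv hind
  have hM := hS.fib
  obtain ⟨A, hAs, hA3, hA, hdet⟩ := exists_cubics hM hS.pos hS.hom hS.irr hS.ndvd v
    (fun i => (hv i).1) (fun i j => hB.pair (r - 1) (r - 1) le_rfl le_rfl _ (hv i) _ (hv j))
  have h01 : A 1 0 = A 0 1 := hAs.apply 0 1
  have key := not_dvd_form hM hsf v hA hind
  have hdet6 : (A 0 0 * A 1 1 - A 0 1 * A 1 0).IsHomogeneous 6 := by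
    have h1 := (hA3 0 0).mul (hA3 1 1)
    have h2 := (hA3 0 1).mul (hA3 1 0)
    exact h1.sub h2
  obtain ⟨q, hq⟩ := hdet
  by_cases hq0 : A 0 0 * A 1 1 - A 0 1 * A 1 0 = 0
  · right
    have hsq : A 0 0 * A 1 1 = A 0 1 ^ 2 := by
      rw [← sub_eq_zero, ← hq0, h01]
      ring
    have hA00 : A 0 0 ≠ 0 := by
      have := key ![1, 0] (fun h => one_ne_zero (congrFun h 0))
      simpa using this
    have hA11 : A 1 1 ≠ 0 := by
      have := key ![0, 1] (fun h => one_ne_zero (congrFun h 1))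
      simpa using this
    obtain ⟨h, a, b, ha, hb, hab⟩ := exists_of_mul_eq_sq hA00 hsq
    have hsum : ∀ c : Fin 2 → ℂ, c ≠ 0 →
        MvPolynomial.C (c 0) * a + MvPolynomial.C (c 1) * b ≠ 0 := by
      intro c hc h0
      apply key c hc
      rw [h01, ha, hb, hab]
      linear_combination (h * (MvPolynomial.C (c 0) * a + MvPolynomial.C (c 1) * b)) * h0
    obtain ⟨m, hm⟩ := homog_of_mul (ha ▸ hA3 0 0) (ha ▸ hA00)
    have hn : ∀ {x : R3}, (h * x ^ 2).IsHomogeneous 3 → h * x ^ 2 ≠ 0 →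
        ∃ n, 3 = m + 2 * n ∧ x.IsHomogeneous n := by
      intro x hx hx0
      obtain ⟨l, hl, hxl⟩ := degree_le_of_mul hm hx hx0
      rw [pow_two] at hxl
      obtain ⟨n, hn⟩ := homog_of_mul hxl (by
        rw [← pow_two]; exact right_ne_zero_of_mul hx0)
      have h1 : l = n + n := hxl.inj_right (hn.mul hn) (by
        rw [← pow_two]; exact right_ne_zero_of_mul hx0)
      exact ⟨n, by omega, hn⟩
    obtain ⟨n, hn1, han⟩ := hn (ha ▸ hA3 0 0) (ha ▸ hA00)
    obtain ⟨n', hn', hbn⟩ := hn (hb ▸ hA3 1 1) (hb ▸ hA11)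
    obtain rfl : n' = n := by omega
    have hn2 : n' = 1 := by
      by_contra hne
      obtain rfl : n' = 0 := by omega
      obtain ⟨a0, rfl⟩ := eq_C_of_hom han
      obtain ⟨b0, rfl⟩ := eq_C_of_hom hbn
      have ha0 : a0 ≠ 0 := by
        rintro rfl
        apply hA00
        rw [ha, MvPolynomial.C_0]
        ring
      refine hsum ![b0, -a0] (fun h => ha0 (neg_eq_zero.1 (congrFun h 1))) ?_
      simp only [Matrix.cons_val_zero, Matrix.cons_val_one, map_neg]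
      ring
    subst hn2
    obtain rfl : m = 1 := by omega
    refine ⟨h, ![a, b], hm, left_ne_zero_of_mul (ha ▸ hA00), fun i => ?_, hsum, fun i j => ?_⟩
    · fin_cases i
      · exact han
      · exact hbn
    · have e : h * (![a, b] i * ![a, b] j) = A i j := by
        fin_cases i <;> fin_cases j
        · change h * (a * a) = A 0 0
          rw [ha]; ring
        · change h * (a * b) = A 0 1
          rw [hab]; ring
        · change h * (b * a) = A 1 0
          rw [h01, hab]; ring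
        · change h * (b * b) = A 1 1
          rw [hb]; ring
      rw [e]
      exact hA i j
  · left
    have hq' := H270.hom_quot hM.det hdet6 hsf.ne_zero hq
    obtain ⟨c, rfl⟩ := eq_C_of_hom hq'.1
    refine ⟨A, c, ?_, hAs, ?_, hA⟩
    · rintro rfl
      apply hq0
      rw [hq, MvPolynomial.C_0, mul_zero]
    · rw [Matrix.det_fin_two, hq, mul_comm]

end Vale.Agent.P287.H946
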