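import Vale.Agent.P287.EvenN.Skel
import Vale.Agent.P287.H946.EHalf

/-!
Block [HE], literal form.
-/

namespace Vale.Agent.P287.H946

open Vale.Agent.P287.EvenN

/-- [HE] -/
theorem stmtHE : StmtHE := fun _ _ _ _ hC hf hsm hsq => exists_halfN hC hf hsm hsq

end Vale.Agent.P287.H946
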