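import Vale.Agent.P287.Nod.Spec
import Vale.Agent.P287.H925.Smooth
import Vale.Agent.P287.Theta.Minors

/-!
The block [S]: the discriminant of the quadric surface fibration of a smooth cubic fourfold
containing a plane is squarefree.
-/

namespace Vale.Agent.P287.H946

open MvPolynomial Matrix Vale.Agent.P287 Vale.Agent.P287.H925

/-- A kernel vector on which the derivatives vanish gives a singular point. -/
theorem no_kernel {M : Matrix (Fin 4) (Fin 4) (MvPolynomial (Fin 3) ℂ)} (hM : M.IsSymm)
    (hdeg : ∀ i j, (M i j).IsHomogeneous (1 + wt i + wt j)) (hs : SmoothForm (cubicOf M))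
    {a : Fin 3 → ℂ} (ha : a ≠ 0) {w : Fin 4 → ℂ} (hw : w ≠ 0)
    (hker : ∀ i, ∑ j, eval a (M i j) * w j = 0)
    (hder : ∀ k, ∑ i, ∑ j, w i * (eval a (pderiv k (M i j)) * w j) = 0) : False := by
  let x : Fin 6 → ℂ := Fin.append (fun k => w 3 * a k) (fun l : Fin 3 => w l.castSucc)
  have hxe : ∀ (p : MvPolynomial (Fin 3) ℂ) (n : ℕ), p.IsHomogeneous n →
      eval x (rename emb p) = w 3 ^ n * eval a p := by
    intro p n hp
    rw [eval_rename]
    have h1 : x ∘ emb = fun k => w 3 * a k := by
      funext k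
      exact Fin.append_left _ _ k
    rw [h1, H925.eval_eq_aeval, aeval_scale hp, H925.eval_eq_aeval]
  have hxv : ∀ j, w 3 ^ (wt j) * eval x (vv j) = w j := by
    intro j
    fin_cases j
    · change w 3 ^ 0 * eval x (X 3) = w 0
      rw [eval_X, pow_zero, one_mul]; rfl
    · change w 3 ^ 0 * eval x (X 4) = w 1
      rw [eval_X, pow_zero, one_mul]; rfl
    · change w 3 ^ 0 * eval x (X 5) = w 2
      rw [eval_X, pow_zero, one_mul]; rfl
    · change w 3 ^ 1 * eval x 1 = w 3
      rw [map_one, pow_one, mul_one]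
  have hx0 : x = 0 := by
    apply hs
    intro i
    rw [← H925.eval_eq_aeval]
    refine Fin.addCases (m := 3) (n := 3) (fun k => ?_) (fun l => ?_) i
    · change eval x (pderiv (emb k) (cubicOf M)) = 0
      rw [pderiv_cubic_low]
      have h1 := hder k
      simp only [map_sum, map_mul] at h1 ⊢
      rw [← h1]
      refine Finset.sum_congr rfl fun i _ => Finset.sum_congr rfl fun j _ => ?_
      have h2 : (pderiv k (M i j)).IsHomogeneous (wt i + wt j) := by
        have := (hdeg i j).pderiv (i := k)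
        have e1 : 1 + wt i + wt j - 1 = wt i + wt j := by omega
        rwa [e1] at this
      rw [hxe _ _ h2, pow_add]
      have h3 := hxv i
      have h4 := hxv j
      calc eval x (vv i) * (w 3 ^ wt i * w 3 ^ wt j * eval a (pderiv k (M i j)) * eval x (vv j))
          = (w 3 ^ wt i * eval x (vv i)) * (eval a (pderiv k (M i j)) *
            (w 3 ^ wt j * eval x (vv j))) := by ring
        _ = _ := by rw [h3, h4]
    · rw [pderiv_cubic_high M hM]
      simp only [map_mul, map_sum]
      have h1 := hker l.castSucc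
      have h2 : ∑ j, eval x (rename emb (M l.castSucc j)) * eval x (vv j) =
          w 3 ^ (1 + wt l.castSucc) * ∑ j, eval a (M l.castSucc j) * w j := by
        rw [Finset.mul_sum]
        refine Finset.sum_congr rfl fun j _ => ?_
        rw [hxe _ _ (hdeg _ _), pow_add]
        have h4 := hxv j
        calc w 3 ^ (1 + wt l.castSucc) * w 3 ^ wt j * eval a (M l.castSucc j) * eval x (vv j)
            = w 3 ^ (1 + wt l.castSucc) * (eval a (M l.castSucc j) *
              (w 3 ^ wt j * eval x (vv j))) := by ring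
          _ = _ := by rw [h4]
      rw [h2, h1, mul_zero, mul_zero]
  have hw3 : w 3 = 0 := by
    by_contra h3
    apply ha
    funext k
    have h1 := congrFun hx0 (emb k)
    have h2 : x (emb k) = w 3 * a k := Fin.append_left _ _ k
    rw [h2] at h1
    exact (mul_eq_zero.1 h1).resolve_left h3
  have hwl : ∀ l : Fin 3, w l.castSucc = 0 := by
    intro l
    have h1 := congrFun hx0 (Fin.natAdd 3 l : Fin 6)
    have h2 : x (Fin.natAdd 3 l : Fin 6) = w l.castSucc := Fin.append_right _ _ l
    rw [h2] at h1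
    exact h1
  apply hw
  funext i
  refine Fin.lastCases ?_ (fun l => ?_) i
  · exact hw3
  · exact hwl l

/-- A polynomial which is not divisible by `π` does not vanish at some point of `π = 0`. -/
theorem exists_point {π P : MvPolynomial (Fin 3) ℂ} (hπ : Irreducible π) (hP : ¬ π ∣ P) :
    ∃ a : Fin 3 → ℂ, a ≠ 0 ∧ eval a π = 0 ∧ eval a P ≠ 0 := by
  obtain ⟨i, hi⟩ : ∃ i : Fin 3, ¬ π ∣ X i := by
    by_contra hc
    push Not at hc
    have hX : ∀ i : Fin 3, Irreducible (X i : MvPolynomial (Fin 3) ℂ) := fun i =>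
      (MvPolynomial.X_prime (i := i)).irreducible
    have h1 : (X 0 : MvPolynomial (Fin 3) ℂ) ∣ X 1 :=
      (hπ.associated_of_dvd (hX 0) (hc 0)).symm.dvd.trans (hc 1)
    obtain ⟨q, hq⟩ := h1
    have h2 := congrArg (eval ![0, 1, 0]) hq
    rw [map_mul, eval_X, eval_X] at h2
    simp at h2
  have h1 : ¬ π ∣ P * X i := fun h => (hπ.prime.dvd_or_dvd h).elim hP hi
  by_contra hc
  push Not at hc
  have h2 : P * X i ∈ (Ideal.span {π} : Ideal (MvPolynomial (Fin 3) ℂ)).radical := by
    rw [← vanishingIdeal_zeroLocus_eq_radical (K := ℂ), mem_vanishingIdeal_iff]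
    intro x hx
    rw [mem_zeroLocus_iff] at hx
    have h3 := hx π (Ideal.mem_span_singleton_self π)
    rw [MvPolynomial.aeval_eq_eval] at h3 ⊢
    by_cases hx0 : x = 0
    · rw [hx0]
      simp
    · have h4 := hc x hx0 h3
      rw [map_mul, h4, zero_mul]
  obtain ⟨n, hn⟩ := h2
  exact h1 (hπ.prime.dvd_of_dvd_pow (Ideal.mem_span_singleton.mp hn))

/-- A vector which is isotropic and not in the kernel, for a form of rank at least two. -/
lemma exists_isotropic {S : Matrix (Fin 4) (Fin 4) ℂ} (hS : S.IsSymm) {i j k l : Fin 4}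
    (h : S i j * S k l - S i l * S k j ≠ 0) :
    ∃ y : Fin 4 → ℂ, y ⬝ᵥ (S *ᵥ y) = 0 ∧ S *ᵥ y ≠ 0 := by
  obtain ⟨s, t, hst, hq⟩ : ∃ s t : ℂ, (s ≠ 0 ∨ t ≠ 0) ∧
      s ^ 2 * S j j + 2 * s * t * S j l + t ^ 2 * S l l = 0 := by
    by_cases h0 : S j j = 0
    · exact ⟨1, 0, Or.inl one_ne_zero, by rw [h0]; ring⟩
    · obtain ⟨d, hd⟩ := IsAlgClosed.exists_pow_nat_eq (S j l ^ 2 - S j j * S l l)
        (n := 2) (by norm_num)
      refine ⟨d - S j l, S j j, Or.inr h0, ?_⟩
      linear_combination S j j * hd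
  refine ⟨s • Pi.single j 1 + t • Pi.single l 1, ?_, ?_⟩
  · have h1 : ∀ a b : Fin 4, (Pi.single a (1 : ℂ) : Fin 4 → ℂ) ⬝ᵥ
        (S *ᵥ (Pi.single b 1 : Fin 4 → ℂ)) = S a b := by
      intro a b
      rw [single_dotProduct, one_mul, mulVec_single_one]
      rfl
    rw [mulVec_add, mulVec_smul, mulVec_smul, add_dotProduct, dotProduct_add, dotProduct_add,
      smul_dotProduct, smul_dotProduct, smul_dotProduct, smul_dotProduct, dotProduct_smul,
      dotProduct_smul, dotProduct_smul, dotProduct_smul, h1, h1, h1, h1, hS.apply j l]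
    simp only [smul_eq_mul]
    linear_combination hq
  · intro h1
    have h2 : ∀ a : Fin 4, s * S a j + t * S a l = 0 := by
      intro a
      have := congrFun h1 a
      rw [mulVec_add, mulVec_smul, mulVec_smul, mulVec_single_one, mulVec_single_one] at this
      exact this
    have h3 : s * (S i j * S k l - S i l * S k j) = 0 := by
      linear_combination S k l * h2 i - S i l * h2 k
    have h4 : t * (S i j * S k l - S i l * S k j) = 0 := by
      linear_combination S i j * h2 k - S k j * h2 i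
    rcases hst with h5 | h5
    · exact h ((mul_eq_zero.mp h3).resolve_left h5)
    · exact h ((mul_eq_zero.mp h4).resolve_left h5)

/-- Division by the largest power of a prime. -/
lemma exists_factor {π : MvPolynomial (Fin 3) ℂ} (hπ : Prime π)
    {N : Matrix (Fin 4) (Fin 4) (MvPolynomial (Fin 3) ℂ)} (hN : N ≠ 0) :
    ∃ (n : ℕ) (N₁ : Matrix (Fin 4) (Fin 4) (MvPolynomial (Fin 3) ℂ)), N = π ^ n • N₁ ∧
      ∃ i j, ¬ π ∣ N₁ i j := by
  classical
  obtain ⟨i₀, j₀, h0⟩ : ∃ i j, N i j ≠ 0 := by
    by_contra hc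
    push Not at hc
    exact hN (Matrix.ext hc)
  obtain ⟨m, hm⟩ : FiniteMultiplicity π (N i₀ j₀) := FiniteMultiplicity.of_prime_left hπ h0
  have hex : ∃ n, ¬ ∀ i j, π ^ n ∣ N i j := ⟨m + 1, fun h => hm (h i₀ j₀)⟩
  have h1 : Nat.find hex ≠ 0 := by
    intro h
    have h2 := Nat.find_spec hex
    rw [h] at h2
    exact h2 fun i j => by
      rw [pow_zero]
      exact one_dvd _
  obtain ⟨n, hn⟩ := Nat.exists_eq_succ_of_ne_zero h1
  have h2 : ∀ i j, π ^ n ∣ N i j := by
    by_contra hc
    exact Nat.find_min hex (by omega) hc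
  have h3 : ¬ ∀ i j, π ^ (n + 1) ∣ N i j := by
    have := Nat.find_spec hex
    rwa [hn] at this
  choose N₁ hN₁ using h2
  refine ⟨n, Matrix.of N₁, ?_, ?_⟩
  · refine Matrix.ext fun i j => ?_
    rw [Matrix.smul_apply, Matrix.of_apply, smul_eq_mul]
    exact hN₁ i j
  · by_contra hc
    push Not at hc
    apply h3
    intro i j
    rw [hN₁ i j, pow_succ]
    exact mul_dvd_mul_left _ (hc i j)

/-- [S] -/
theorem stmtS : Nod.StmtS := by
  intro M hM hdeg hs
  have hs' : IsSmooth (cubicOf M) := by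
    intro z hz
    apply hs z
    intro i
    rw [← H925.eval_eq_aeval]
    exact hz i
  have hf0 : M.det ≠ 0 := det_ne_zero_of_smooth M hM hdeg hs'
  intro x hx
  by_contra hxu
  have hx0 : x ≠ 0 := by
    rintro rfl
    rw [zero_mul, zero_dvd_iff] at hx
    exact hf0 hx
  obtain ⟨π, hπi, hπx⟩ := WfDvdMonoid.exists_irreducible_factor hxu hx0
  have hπ := hπi.prime
  have hππ : π * π ∣ M.det := (mul_dvd_mul hπx hπx).trans hx
  have hN0 : M.adjugate ≠ 0 := by
    intro h
    have h1 := congrFun (congrFun (mul_adjugate M) 0) 0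
    rw [h, Matrix.mul_zero] at h1
    simp at h1
    exact hf0 h1.symm
  obtain ⟨n, N, hN, i₀, j₀, hij⟩ := exists_factor hπ hN0
  have hπn : π ^ n ≠ 0 := pow_ne_zero _ hπ.ne_zero
  have hMN : π ^ n • (M * N) = M.det • (1 : Matrix (Fin 4) (Fin 4) _) := by
    rw [← Matrix.mul_smul, ← hN, mul_adjugate]
  set f₁ := (M * N) 0 0 with hf₁
  have hf : M.det = π ^ n * f₁ := by
    have h1 := congrFun (congrFun hMN 0) 0
    rw [Matrix.smul_apply, Matrix.smul_apply, one_apply_eq, smul_eq_mul, smul_eq_mul,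
      mul_one] at h1
    exact h1.symm
  have hMN1 : M * N = f₁ • (1 : Matrix (Fin 4) (Fin 4) _) := by
    refine Matrix.ext fun i j => mul_left_cancel₀ hπn ?_
    have h1 := congrFun (congrFun hMN i) j
    rw [Matrix.smul_apply, Matrix.smul_apply, smul_eq_mul, smul_eq_mul, hf] at h1
    rw [Matrix.smul_apply, smul_eq_mul, h1]
    ring
  have hNs : N.IsSymm := by
    refine Matrix.IsSymm.ext fun i j => mul_left_cancel₀ hπn ?_
    have h1 := (hM.adjugate).apply i j
    rw [hN, Matrix.smul_apply, Matrix.smul_apply, smul_eq_mul, smul_eq_mul] at h1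
    exact h1
  have hdet : M.det * N.det = f₁ ^ 4 := by
    rw [← det_mul, hMN1, det_smul, det_one, mul_one, Fintype.card_fin]
  have hf₁0 : f₁ ≠ 0 := by
    intro h
    rw [h, mul_zero] at hf
    exact hf0 hf
  have hπf₁ : π ∣ f₁ := by
    refine hπ.dvd_of_dvd_pow (n := 4) ?_
    rw [← hdet]
    exact ((Dvd.intro _ rfl).trans hππ).mul_right _
  obtain ⟨h, hh⟩ := hπf₁
  -- the singular point
  have key : ∀ (a : Fin 3 → ℂ) (y : Fin 4 → ℂ), a ≠ 0 → eval a π = 0 →
      (N.map (eval a)) *ᵥ y ≠ 0 →
      (∀ l, eval a (pderiv l f₁) * (y ⬝ᵥ ((N.map (eval a)) *ᵥ y)) = 0) → False := by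
    intro a y ha hπa hy hd
    set S := N.map (eval a) with hS
    set M₀ := M.map (eval a) with hM₀
    have hSs : S.IsSymm := hNs.map _
    have hM₀s : M₀.IsSymm := hM.map _
    have hf₁a : eval a f₁ = 0 := by
      rw [hh, map_mul, hπa, zero_mul]
    have hM₀S : M₀ * S = 0 := by
      rw [hM₀, hS, ← Matrix.map_mul, hMN1]
      refine Matrix.ext fun i j => ?_
      rw [Matrix.map_apply, Matrix.smul_apply, smul_eq_mul, map_mul, hf₁a, zero_mul]
      rfl
    have hSM₀ : S * M₀ = 0 := by
      have h1 := congrArg Matrix.transpose hM₀S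
      rw [transpose_mul, hSs.eq, hM₀s.eq, transpose_zero] at h1
      exact h1
    refine no_kernel hM hdeg hs ha hy ?_ ?_
    · intro i
      have h1 : (M₀ *ᵥ (S *ᵥ y)) i = 0 := by
        rw [mulVec_mulVec, hM₀S, zero_mulVec]
        rfl
      exact h1
    · intro l
      set DM : Matrix (Fin 4) (Fin 4) ℂ := Matrix.of fun i j => eval a (pderiv l (M i j)) with hDM
      set DN : Matrix (Fin 4) (Fin 4) ℂ := Matrix.of fun i j => eval a (pderiv l (N i j)) with hDN
      have h1 : DM * S + M₀ * DN = eval a (pderiv l f₁) • (1 : Matrix (Fin 4) (Fin 4) ℂ) := by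
        refine Matrix.ext fun i j => ?_
        have h2 := congrArg (fun p => eval a (pderiv l p)) (congrFun (congrFun hMN1 i) j)
        simp only [Matrix.mul_apply, map_sum, pderiv_mul, map_add, map_mul,
          Finset.sum_add_distrib, Matrix.smul_apply, smul_eq_mul] at h2
        rw [Matrix.add_apply, Matrix.mul_apply, Matrix.mul_apply, Matrix.smul_apply, smul_eq_mul]
        refine h2.trans ?_
        rw [hf₁a, zero_mul, add_zero]
        congr 1
        by_cases hij : i = j
        · subst hij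
          rw [Matrix.one_apply_eq, Matrix.one_apply_eq, map_one]
        · rw [Matrix.one_apply_ne hij, Matrix.one_apply_ne hij, map_zero]
      have h2 : S * DM * S = eval a (pderiv l f₁) • S := by
        have h3 := congrArg (fun A => S * A) h1
        simp only [Matrix.mul_add, Matrix.mul_smul, Matrix.mul_one] at h3
        rw [← Matrix.mul_assoc S M₀, hSM₀, Matrix.zero_mul, add_zero, ← Matrix.mul_assoc] at h3
        exact h3
      have h3 : (S *ᵥ y) ⬝ᵥ (DM *ᵥ (S *ᵥ y)) = 0 := by
        have h4 : (S *ᵥ y) ⬝ᵥ (DM *ᵥ (S *ᵥ y)) = y ⬝ᵥ ((S * DM * S) *ᵥ y) := by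
          have h5 : ∀ u v : Fin 4 → ℂ, (S *ᵥ u) ⬝ᵥ v = u ⬝ᵥ (S *ᵥ v) := fun u v => by
            rw [dotProduct_mulVec, ← mulVec_transpose, hSs.eq]
          rw [h5, mulVec_mulVec, mulVec_mulVec, Matrix.mul_assoc]
        rw [h4, h2, smul_mulVec, dotProduct_smul, smul_eq_mul]
        exact hd l
      rw [← h3]
      simp only [dotProduct, mulVec, Finset.mul_sum]
      rfl
  by_cases hπh : π ∣ h
  · -- the first case
    obtain ⟨a, ha, hπa, hNa⟩ := exists_point hπi hij
    refine key a (Pi.single j₀ 1) ha hπa ?_ ?_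
    · intro h1
      apply hNa
      have := congrFun h1 i₀
      rw [mulVec_single_one] at this
      exact this
    · intro l
      obtain ⟨h', rfl⟩ := hπh
      rw [hh, pderiv_mul, pderiv_mul]
      simp only [map_add, map_mul, hπa, zero_mul, mul_zero, add_zero]
  · -- the second case
    have hrk : ¬ Theta.RankOneMod π N := by
      intro hrk
      obtain ⟨c, hc⟩ := Theta.pow_dvd_det hπ N hrk
      have h1 : π ^ n * N.det = f₁ ^ 3 := by
        refine mul_left_cancel₀ hf₁0 ?_
        have h2 := hdet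
        rw [hf] at h2
        linear_combination h2
      have h2 : π ^ n * c = h ^ 3 := by
        refine mul_left_cancel₀ (pow_ne_zero 3 hπ.ne_zero) ?_
        rw [hc, hh] at h1
        linear_combination h1
      rcases Nat.eq_zero_or_pos n with h0 | h0
      · rw [h0, pow_zero, one_mul] at hf
        rw [hf, hh] at hππ
        exact hπh ((mul_dvd_mul_iff_left hπ.ne_zero).mp hππ)
      · apply hπh
        refine hπ.dvd_of_dvd_pow (n := 3) ?_
        rw [← h2]
        exact (dvd_pow_self π (by omega)).mul_right _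
    rw [Theta.RankOneMod] at hrk
    push Not at hrk
    obtain ⟨i, j, k, l, hm⟩ := hrk
    obtain ⟨a, ha, hπa, hNa⟩ := exists_point hπi hm
    obtain ⟨y, hy1, hy2⟩ := exists_isotropic (S := N.map (eval a)) (hNs.map _)
      (i := i) (j := j) (k := k) (l := l) (by
        rw [map_sub, map_mul, map_mul] at hNa
        exact hNa)
    exact key a y ha hπa hy2 fun l => by rw [hy1, mul_zero]

end Vale.Agent.P287.H946
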